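import Vale.Agent.P272.K.R.Reg
import Vale.Agent.P272.K.H.Uniq
import Vale.Agent.P272.K.V.Const
import Vale.Agent.P272.K.N.Smooth

/-!
# The constant coefficient estimate and the final regularity theorem
-/

set_option maxSynthPendingDepth 3
set_option linter.unusedSectionVars false

open Set Metric Filter Topology
open scoped ContDiff
open Module

noncomputable section

namespace Vale.Agent.P272.K.R

open LIN

section CCE

theorem exists_hb {E : Type*} [NormedAddCommGroup E] [NormedSpace ℝ E] {α : ℝ} (hα : 0 < α)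
    (hα1 : α ≤ 1) {v : E → ℝ} (hv : ContDiff ℝ 1 v) (hvc : HasCompactSupport v) :
    ∃ M K, 0 ≤ K ∧ HB α v M K := by
  obtain ⟨L, hL⟩ := hv.lipschitzWith_of_hasCompactSupport hvc (by norm_num)
  obtain ⟨M, hM⟩ := hvc.exists_bound_of_continuous hv.continuous
  have hM0 : 0 ≤ M := (norm_nonneg _).trans (hM 0)
  refine ⟨M, L + 2 * M, by positivity, hM, fun x y => ?_⟩
  have h1 : ‖v x - v y‖ ≤ L * ‖x - y‖ := by
    have := hL.dist_le_mul x y
    rwa [dist_eq_norm, dist_eq_norm] at this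
  have hr : 0 ≤ ‖x - y‖ ^ α := by positivity
  rcases le_total ‖x - y‖ 1 with h | h
  · have h2 : ‖x - y‖ ≤ ‖x - y‖ ^ α := by
      rcases (norm_nonneg (x - y)).eq_or_lt with h0 | h0
      · rw [← h0]; exact Real.rpow_nonneg le_rfl _
      · calc ‖x - y‖ = ‖x - y‖ ^ (1 : ℝ) := (Real.rpow_one _).symm
          _ ≤ _ := Real.rpow_le_rpow_of_exponent_ge h0 h hα1
    have h3 : L * ‖x - y‖ ≤ L * ‖x - y‖ ^ α := mul_le_mul_of_nonneg_left h2 L.2
    have h4 : 0 ≤ 2 * M * ‖x - y‖ ^ α := by positivity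
    rw [add_mul]; linarith
  · have h2 : 1 ≤ ‖x - y‖ ^ α := Real.one_le_rpow h hα.le
    have h3 : ‖v x - v y‖ ≤ 2 * M := by
      have := norm_sub_le (v x) (v y)
      have := hM x
      have := hM y
      linarith
    have h4 : 2 * M ≤ 2 * M * ‖x - y‖ ^ α := le_mul_of_one_le_right (by positivity) h2
    have h5 : 0 ≤ L * ‖x - y‖ ^ α := mul_nonneg L.2 hr
    rw [add_mul]; linarith

/-- **The constant coefficient estimate** holds for all elliptic functionals. -/
theorem allCCE (E : Type) [NormedAddCommGroup E] [NormedSpace ℝ E] [FiniteDimensional ℝ E] {α : ℝ}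
    (hα : 0 < α) (hα1 : α < 1) : AllCCE α E := by
  intro B hB
  obtain ⟨w, hw⟩ := V.exists_frame B hB
  let T : EuclideanSpace ℝ (Fin (finrank ℝ E)) ≃L[ℝ] E :=
    ((EuclideanSpace.basisFun (Fin (finrank ℝ E)) ℝ).toBasis.equiv w
      (Equiv.refl _)).toContinuousLinearEquiv
  have hT : ∀ i, T (EuclideanSpace.single i 1) = w i := by
    intro i
    have := (EuclideanSpace.basisFun (Fin (finrank ℝ E)) ℝ).toBasis.equiv_apply i w (Equiv.refl _)
    simpa [T] using this
  obtain ⟨C, hC, h⟩ := H.holder_fderiv2_le (EuclideanSpace ℝ (Fin (finrank ℝ E))) hα hα1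
  set t : ℝ := ‖(T : EuclideanSpace ℝ (Fin (finrank ℝ E)) →L[ℝ] E)‖ with ht
  set s : ℝ := ‖(T.symm : E →L[ℝ] EuclideanSpace ℝ (Fin (finrank ℝ E)))‖ with hs
  have ht0 : 0 ≤ t := norm_nonneg _
  have hs0 : 0 ≤ s := norm_nonneg _
  refine ⟨s ^ 2 * (C * t ^ α) * s ^ α, by positivity, fun v hv hvc K hK hH x _ y _ => ?_⟩
  have hu : ContDiff ℝ 2 (fun y => v (T y)) := hv.comp T.contDiff
  have huc : HasCompactSupport (fun y => v (T y)) := hvc.comp_homeomorph T.toHomeomorph
  obtain ⟨M, K', hK', hM⟩ := exists_hb hα hα1.le (hu.of_le (by norm_num)) huc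
  -- the Laplacian
  have htr : ∀ x, ∑ i, fderiv ℝ (fderiv ℝ (fun y => v (T y))) x
      (EuclideanSpace.basisFun (Fin (finrank ℝ E)) ℝ i)
      (EuclideanSpace.basisFun (Fin (finrank ℝ E)) ℝ i) = B (D2 v (T x)) := by
    intro x
    rw [hw (D2 v (T x)) (fun y z => (hv.contDiffAt.isSymmSndFDerivAt (by simp)).eq y z)]
    refine Finset.sum_congr rfl fun i _ => ?_
    rw [EuclideanSpace.basisFun_apply, V.fderiv2_comp_equiv T v hv, hT]
  have hcs : HasCompactSupport (fun x => B (D2 v (T x))) := by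
    have h1 : HasCompactSupport (D2 v) := (hvc.fderiv ℝ).fderiv ℝ
    have h2 : HasCompactSupport (fun x => B (D2 v x)) := h1.comp_left (g := B) (map_zero B)
    exact h2.comp_homeomorph T.toHomeomorph
  have hcont : Continuous (fun x => B (D2 v (T x))) := by
    have h1 : Continuous (D2 v) :=
      ((hv.fderiv_right (m := 1) (by norm_num)).fderiv_right (m := 0) (by norm_num)).continuous
    exact B.continuous.comp (h1.comp T.continuous)
  obtain ⟨A, hA⟩ := hcs.exists_bound_of_continuous hcont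
  have hHB : HB α (fun x => ∑ i, fderiv ℝ (fderiv ℝ (fun y => v (T y))) x
      (EuclideanSpace.basisFun (Fin (finrank ℝ E)) ℝ i)
      (EuclideanSpace.basisFun (Fin (finrank ℝ E)) ℝ i)) A (K * t ^ α) := by
    refine ⟨fun x => ?_, fun x y => ?_⟩
    · rw [htr]; exact hA x
    · rw [htr, htr]
      refine (hH _ (mem_univ _) _ (mem_univ _)).trans ?_
      rw [mul_assoc]
      refine mul_le_mul_of_nonneg_left ?_ hK
      rw [← map_sub, ← Real.mul_rpow ht0 (norm_nonneg _)]
      exact Real.rpow_le_rpow (norm_nonneg _)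
        ((T : EuclideanSpace ℝ (Fin (finrank ℝ E)) →L[ℝ] E).le_opNorm _) hα.le
  have key := h (Fin (finrank ℝ E)) (EuclideanSpace.basisFun (Fin (finrank ℝ E)) ℝ)
    (fun y => v (T y)) M K' A (K * t ^ α) hu (by positivity) hK' hM hHB
  -- back to `v`
  have hback : ∀ x, D2 v x = V.pull2 (T.symm : E →L[ℝ] EuclideanSpace ℝ (Fin (finrank ℝ E)))
      (fderiv ℝ (fderiv ℝ (fun y => v (T y))) (T.symm x)) := by
    intro x
    have h1 : v = fun y => (fun y => v (T y)) (T.symm y) := by
      funext y; simp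
    conv_lhs => rw [h1]
    exact V.fderiv2_comp_equiv' T.symm (fun y => v (T y)) hu x
  rw [hback x, hback y, ← V.pull2_sub]
  refine (V.norm_pull2_le _ _).trans ?_
  have h2 := key (T.symm x) (T.symm y)
  have h3 : ‖T.symm x - T.symm y‖ ^ α ≤ (s * ‖x - y‖) ^ α := by
    rw [← map_sub]
    exact Real.rpow_le_rpow (norm_nonneg _)
      ((T.symm : E →L[ℝ] EuclideanSpace ℝ (Fin (finrank ℝ E))).le_opNorm _) hα.le
  rw [Real.mul_rpow hs0 (norm_nonneg _)] at h3
  calc s ^ 2 * _ ≤ s ^ 2 * (C * (K * t ^ α) * (s ^ α * ‖x - y‖ ^ α)) :=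
        mul_le_mul_of_nonneg_left (h2.trans (mul_le_mul_of_nonneg_left h3 (by positivity)))
          (by positivity)
    _ = _ := by ring

end CCE

/-- **Block R**: local regularity of solutions of nonlinear elliptic equations. -/
theorem reg (E : Type) [NormedAddCommGroup E] [NormedSpace ℝ E] [FiniteDimensional ℝ E] {α : ℝ}
    (hα : 0 < α) (hα1 : α < 1) : N.RegStatement E α := by
  intro U hU w hw hwH V hV Φ hΦ hmem heq hell x hx
  have hw2 : LHol α (D2 w) U := by
    intro y hy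
    obtain ⟨r, hr, C, hC⟩ := hwH y hy
    obtain ⟨r', hr', hb'⟩ := Metric.mem_nhds_iff.1 (hU.mem_nhds hy)
    refine ⟨min r r', lt_min hr hr', (ball_subset_ball (min_le_right _ _)).trans hb', |C|,
      abs_nonneg _, fun z hz z' hz' => ?_⟩
    exact (hC z (ball_subset_ball (min_le_left _ _) hz) z'
      (ball_subset_ball (min_le_left _ _) hz')).trans
        (mul_le_mul_of_nonneg_right (le_abs_self C) (by positivity))
  have h := nonlinear_reg hα hα1.le (allCCE E hα hα1) hU
    (fun y hy => (hw y hy).contDiffWithinAt) hw2 hV (Φ := Φ)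
    (fun p hp => (hΦ p hp).contDiffWithinAt) hmem heq hell
  exact h.contDiffAt (hU.mem_nhds hx)

end Vale.Agent.P272.K.R
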