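import Vale.Agent.P272.K.R.Step

/-!
# Regularity of solutions of nonlinear elliptic equations

`C^{2,α}` solutions of smooth elliptic equations `Φ(x, w, D²w) = 0` are smooth.
-/

set_option maxSynthPendingDepth 3
set_option linter.unusedSectionVars false

open Set Metric Filter Topology
open scoped ContDiff

noncomputable section

namespace Vale.Agent.P272.K.R

section MH

variable {E : Type} [NormedAddCommGroup E] [NormedSpace ℝ E]
variable {F G H : Type*} [NormedAddCommGroup F] [NormedSpace ℝ F] [NormedAddCommGroup G]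
  [NormedSpace ℝ G] [NormedAddCommGroup H] [NormedSpace ℝ H] {α : ℝ} {p₀ : Pt E}

/-- `f` is near `p₀` bounded, `α`-Hölder in the first and Lipschitz in the other variables. -/
def MH (α : ℝ) (f : Pt E → F) (p₀ : Pt E) : Prop :=
  ∃ ρ > 0, ∃ L, 0 ≤ L ∧ ∀ p ∈ ball p₀ ρ, ‖f p‖ ≤ L ∧
    ∀ p' ∈ ball p₀ ρ, ‖f p - f p'‖ ≤ L * (‖p.1 - p'.1‖ ^ α + ‖p.2 - p'.2‖)

theorem MH.congr {f g : Pt E → F} (hf : MH α f p₀) (h : f =ᶠ[𝓝 p₀] g) : MH α g p₀ := by
  obtain ⟨ρ, hρ, L, hL, hf⟩ := hf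
  obtain ⟨ρ', hρ', h'⟩ := Metric.mem_nhds_iff.1 h
  refine ⟨min ρ ρ', lt_min hρ hρ', L, hL, fun p hp => ?_⟩
  have e1 : f p = g p := h' (ball_subset_ball (min_le_right _ _) hp)
  have h1 := hf p (ball_subset_ball (min_le_left _ _) hp)
  refine ⟨e1 ▸ h1.1, fun p' hp' => ?_⟩
  have e2 : f p' = g p' := h' (ball_subset_ball (min_le_right _ _) hp')
  rw [← e1, ← e2]
  exact h1.2 p' (ball_subset_ball (min_le_left _ _) hp')

theorem mh_nonneg (p p' : Pt E) : 0 ≤ ‖p.1 - p'.1‖ ^ α + ‖p.2 - p'.2‖ := by positivity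

theorem MH.add {f g : Pt E → F} (hf : MH α f p₀) (hg : MH α g p₀) :
    MH α (fun p => f p + g p) p₀ := by
  obtain ⟨ρ, hρ, L, hL, hf⟩ := hf
  obtain ⟨ρ', hρ', L', hL', hg⟩ := hg
  refine ⟨min ρ ρ', lt_min hρ hρ', L + L', by positivity, fun p hp => ?_⟩
  have h1 := hf p (ball_subset_ball (min_le_left _ _) hp)
  have h2 := hg p (ball_subset_ball (min_le_right _ _) hp)
  refine ⟨(norm_add_le _ _).trans (add_le_add h1.1 h2.1), fun p' hp' => ?_⟩
  have e : f p + g p - (f p' + g p') = (f p - f p') + (g p - g p') := by abel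
  rw [e, add_mul]
  exact (norm_add_le _ _).trans (add_le_add (h1.2 p' (ball_subset_ball (min_le_left _ _) hp'))
    (h2.2 p' (ball_subset_ball (min_le_right _ _) hp')))

theorem MH.bilin (B : F →L[ℝ] G →L[ℝ] H) {f : Pt E → F} {g : Pt E → G} (hf : MH α f p₀)
    (hg : MH α g p₀) : MH α (fun p => B (f p) (g p)) p₀ := by
  obtain ⟨ρ, hρ, L, hL, hf⟩ := hf
  obtain ⟨ρ', hρ', L', hL', hg⟩ := hg
  refine ⟨min ρ ρ', lt_min hρ hρ', ‖B‖ * L * L' + ‖B‖ * L * L', by positivity, fun p hp => ?_⟩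
  have h1 := hf p (ball_subset_ball (min_le_left _ _) hp)
  have h2 := hg p (ball_subset_ball (min_le_right _ _) hp)
  constructor
  · refine ((B.le_opNorm₂ _ _).trans (mul_le_mul (mul_le_mul_of_nonneg_left h1.1
      (norm_nonneg B)) h2.1 (norm_nonneg _) (by positivity))).trans ?_
    have : 0 ≤ ‖B‖ * L * L' := by positivity
    linarith
  · intro p' hp'
    have h1' := hf p' (ball_subset_ball (min_le_left _ _) hp')
    have e : B (f p) (g p) - B (f p') (g p') = B (f p - f p') (g p) + B (f p') (g p - g p') := by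
      simp [map_sub]
    set X := ‖p.1 - p'.1‖ ^ α + ‖p.2 - p'.2‖ with hX
    have hX0 : 0 ≤ X := by positivity
    have h3 : ‖B (f p - f p') (g p)‖ ≤ ‖B‖ * (L * X) * L' :=
      (B.le_opNorm₂ _ _).trans (mul_le_mul (mul_le_mul_of_nonneg_left
        (h1.2 p' (ball_subset_ball (min_le_left _ _) hp')) (norm_nonneg B)) h2.1 (norm_nonneg _)
        (by positivity))
    have h4 : ‖B (f p') (g p - g p')‖ ≤ ‖B‖ * L * (L' * X) :=
      (B.le_opNorm₂ _ _).trans (mul_le_mul (mul_le_mul_of_nonneg_left h1'.1 (norm_nonneg B))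
        (h2.2 p' (ball_subset_ball (min_le_right _ _) hp')) (norm_nonneg _) (by positivity))
    rw [e]
    calc _ ≤ _ := norm_add_le _ _
      _ ≤ ‖B‖ * (L * X) * L' + ‖B‖ * L * (L' * X) := add_le_add h3 h4
      _ = _ := by ring

theorem mh_const (c : F) : MH α (fun _ : Pt E => c) p₀ :=
  ⟨1, one_pos, ‖c‖, norm_nonneg _, fun p _ => ⟨le_rfl, fun p' _ => by
    rw [sub_self, norm_zero]; exact mul_nonneg (norm_nonneg _) (mh_nonneg _ _)⟩⟩

theorem MH.clm (B : F →L[ℝ] G) {f : Pt E → F} (hf : MH α f p₀) : MH α (fun p => B (f p)) p₀ := by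
  have := (mh_const (α := α) (p₀ := p₀) B).bilin (ContinuousLinearMap.id ℝ (F →L[ℝ] G)) hf
  exact this

theorem mh_fst (hα : 0 < α) {U : Set E} {a : E → F} (ha : LHol α a U) (hp : p₀.1 ∈ U) :
    MH α (fun p : Pt E => a p.1) p₀ := by
  obtain ⟨r, hr, _, C, hC, h1, h2⟩ := ha.exists_bound hα hp
  refine ⟨r, hr, C, hC, fun p hp' => ?_⟩
  have hfst : ∀ q ∈ ball p₀ r, q.1 ∈ ball p₀.1 r := fun q hq => by
    rw [mem_ball_iff_norm] at hq ⊢
    exact (norm_fst_le (q - p₀)).trans_lt hq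
  refine ⟨h2 _ (hfst p hp'), fun p' hp'' => ?_⟩
  refine (h1 _ (hfst p hp') _ (hfst p' hp'')).trans (mul_le_mul_of_nonneg_left ?_ hC)
  have := norm_nonneg (p.2 - p'.2)
  linarith

theorem mh_snd : MH α (fun p : Pt E => p.2) p₀ := by
  refine ⟨1, one_pos, ‖p₀.2‖ + 1, by positivity, fun p hp => ⟨?_, fun p' _ => ?_⟩⟩
  · have h1 : ‖p.2 - p₀.2‖ ≤ 1 :=
      ((norm_snd_le (p - p₀)).trans_lt (mem_ball_iff_norm.1 hp)).le
    calc ‖p.2‖ = ‖p₀.2 + (p.2 - p₀.2)‖ := by congr 1; abel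
      _ ≤ _ := (norm_add_le _ _).trans (add_le_add le_rfl h1)
  · have h1 : 0 ≤ ‖p.1 - p'.1‖ ^ α := by positivity
    have h2 : 0 ≤ ‖p.2 - p'.2‖ := norm_nonneg _
    have h3 : 0 ≤ ‖p₀.2‖ := norm_nonneg _
    calc ‖p.2 - p'.2‖ ≤ 1 * (‖p.1 - p'.1‖ ^ α + ‖p.2 - p'.2‖) := by linarith
      _ ≤ _ := mul_le_mul_of_nonneg_right (by linarith) (by positivity)

/-- `C^1` functions satisfy the mixed condition. -/
theorem mh_of_contDiffAt (hα1 : α ≤ 1) {f : Pt E → F} (hf : ContDiffAt ℝ 1 f p₀) :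
    MH α f p₀ := by
  obtain ⟨K, t, ht, hK⟩ := hf.exists_lipschitzOnWith
  obtain ⟨ρ, hρ, hb⟩ := Metric.mem_nhds_iff.1 ht
  set ρ' := min ρ (1 / 2) with hρ'
  have hρ'0 : 0 < ρ' := lt_min hρ (by norm_num)
  have hsub : ball p₀ ρ' ⊆ t := (ball_subset_ball (min_le_left _ _)).trans hb
  have hlip : ∀ p ∈ ball p₀ ρ', ∀ p' ∈ ball p₀ ρ', ‖f p - f p'‖ ≤ K * ‖p - p'‖ := fun p hp p' hp' => by
    have := hK.dist_le_mul p (hsub hp) p' (hsub hp')
    rwa [dist_eq_norm, dist_eq_norm] at this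
  refine ⟨ρ', hρ'0, ‖f p₀‖ + K, by positivity, fun p hp => ⟨?_, fun p' hp' => ?_⟩⟩
  · have h1 := hlip p hp p₀ (mem_ball_self hρ'0)
    have h2 : ‖p - p₀‖ ≤ 1 := by
      have := mem_ball_iff_norm.1 hp
      have h3 : ρ' ≤ 1 / 2 := min_le_right _ _
      linarith
    calc ‖f p‖ = ‖f p₀ + (f p - f p₀)‖ := by congr 1; abel
      _ ≤ ‖f p₀‖ + ‖f p - f p₀‖ := norm_add_le _ _
      _ ≤ ‖f p₀‖ + K * 1 := by
        refine add_le_add le_rfl (h1.trans (mul_le_mul_of_nonneg_left h2 K.2))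
      _ = _ := by ring
  · have h1 := hlip p hp p' hp'
    have h2 : ‖p.1 - p'.1‖ ≤ 1 := by
      have h3 := mem_ball_iff_norm.1 hp
      have h4 := mem_ball_iff_norm.1 hp'
      have h5 : ρ' ≤ 1 / 2 := min_le_right _ _
      calc ‖p.1 - p'.1‖ ≤ ‖p - p'‖ := norm_fst_le (p - p')
        _ = ‖(p - p₀) - (p' - p₀)‖ := by congr 1; abel
        _ ≤ ‖p - p₀‖ + ‖p' - p₀‖ := norm_sub_le _ _
        _ ≤ 1 := by linarith
    have h3 : ‖p.1 - p'.1‖ ≤ ‖p.1 - p'.1‖ ^ α := by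
      rcases (norm_nonneg (p.1 - p'.1)).eq_or_lt with h0 | h0
      · rw [← h0]; exact Real.rpow_nonneg le_rfl _
      · calc ‖p.1 - p'.1‖ = ‖p.1 - p'.1‖ ^ (1 : ℝ) := (Real.rpow_one _).symm
          _ ≤ _ := Real.rpow_le_rpow_of_exponent_ge h0 h2 hα1
    have h4 : ‖p - p'‖ ≤ ‖p.1 - p'.1‖ ^ α + ‖p.2 - p'.2‖ := by
      have h5 : 0 ≤ ‖p.2 - p'.2‖ := norm_nonneg _
      have h6 : 0 ≤ ‖p.1 - p'.1‖ ^ α := by positivity
      rw [Prod.norm_def]
      exact max_le (by simp only [Prod.fst_sub]; linarith) (by simp only [Prod.snd_sub]; linarith)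
    refine h1.trans (mul_le_mul ?_ h4 (norm_nonneg _) (by positivity))
    have := norm_nonneg (f p₀)
    linarith

end MH

section Reg

variable {E : Type} [NormedAddCommGroup E] [NormedSpace ℝ E] [FiniteDimensional ℝ E]
  {α : ℝ} {U : Set E}

/-- The constant coefficient estimate holds for all elliptic functionals. -/
def AllCCE (α : ℝ) (E : Type) [NormedAddCommGroup E] [NormedSpace ℝ E] : Prop :=
  ∀ B : Bil E →L[ℝ] ℝ, (∀ ℓ : E →L[ℝ] ℝ, ℓ ≠ 0 → 0 < B (ℓ.smulRight ℓ)) → ∃ C, 0 ≤ C ∧ CCE α C B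

/-- **One step of regularity.** -/
theorem reg_step (hα : 0 < α) (hα1 : α ≤ 1) (hcce : AllCCE α E) (hU : IsOpen U) {w : E → ℝ}
    (hw : ContDiffOn ℝ 2 w U) (hw2 : LHol α (D2 w) U) {Φ : Pt E → ℝ}
    (hΦd : ∀ x ∈ U, ∀ᶠ p in 𝓝 (jt w x), DifferentiableAt ℝ Φ p)
    (hΦ : ∀ x ∈ U, MH α (fderiv ℝ Φ) (jt w x)) (heq : ∀ x ∈ U, Φ (jt w x) = 0)
    (hell : ∀ x ∈ U, ∀ ℓ : E →L[ℝ] ℝ, ℓ ≠ 0 → 0 < fderiv ℝ Φ (jt w x) (0, 0, ℓ.smulRight ℓ)) :
    HC α U 3 w := by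
  refine HC.of_local fun x hx => ?_
  obtain ⟨R, hR, hRU⟩ := Metric.mem_nhds_iff.1 (hU.mem_nhds hx)
  obtain ⟨ρ, hρ, L, hL, hML⟩ := hΦ x hx
  obtain ⟨ρ', hρ', hd⟩ := Metric.mem_nhds_iff.1 (hΦd x hx)
  obtain ⟨C, hC, hB⟩ := hcce ((fderiv ℝ Φ (jt w x)).comp J) (fun ℓ hℓ => hell x hx ℓ hℓ)
  have hw2' : LHol α (D2 w) (ball x R) := fun y hy => by
    obtain ⟨r, hr, _, C, hC, h⟩ := hw2 y (hRU hy)
    obtain ⟨r', hr', hb'⟩ := Metric.mem_nhds_iff.1 (isOpen_ball.mem_nhds hy)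
    exact ⟨min r r', lt_min hr hr', (ball_subset_ball (min_le_right _ _)).trans hb', C, hC,
      h.mono (ball_subset_ball (min_le_left _ _))⟩
  obtain ⟨r, hr, hrR, hfin⟩ := local_step hα hα1 hR (hw.mono hRU) hw2' (Φ := Φ)
    (ρ := min ρ ρ') (L := L) (lt_min hρ hρ') hL
    (fun p hp => hd (ball_subset_ball (min_le_right _ _) hp))
    (fun p hp p' hp' => (hML p (ball_subset_ball (min_le_left _ _) hp)).2 p'
      (ball_subset_ball (min_le_left _ _) hp'))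
    (fun y hy => heq y (hRU hy)) hC hB
  exact ⟨r, hr, (ball_subset_ball hrR).trans hRU, hfin⟩

/-- Differentiation commutes with `D²`. -/
theorem fderiv_D2 {z : E → ℝ} {x : E} (hz : ContDiffAt ℝ 3 z x) (e : E) :
    fderiv ℝ (D2 z) x e = D2 (fun y => fderiv ℝ z y e) x := by
  have hz1 : ContDiffAt ℝ 2 (fderiv ℝ z) x := hz.fderiv_right (by norm_num)
  have hz2 : ContDiffAt ℝ 1 (D2 z) x := hz1.fderiv_right (by norm_num)
  have hev : ∀ᶠ y in 𝓝 x, ContDiffAt ℝ 2 z y :=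
    ((hz.of_le (by norm_num)).eventually (by simp) : ∀ᶠ y in 𝓝 x, ContDiffAt ℝ 2 z y)
  have hev1 : ∀ᶠ y in 𝓝 x, DifferentiableAt ℝ (fderiv ℝ z) y := by
    filter_upwards [hev] with y hy
    exact (hy.fderiv_right (m := 1) (by norm_num)).differentiableAt (by norm_num)
  have hd3 : HasFDerivAt (D2 z) (fderiv ℝ (D2 z) x) x :=
    (hz2.differentiableAt (by norm_num)).hasFDerivAt
  -- first derivative of the directional derivative
  have e1 : fderiv ℝ (fun y => fderiv ℝ z y e) =ᶠ[𝓝 x] fun y => (D2 z y).flip e := by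
    filter_upwards [hev1] with y hy
    have := hy.hasFDerivAt.clm_apply (hasFDerivAt_const e y)
    simpa using this.fderiv
  have e2 : (fun y => (D2 z y).flip e) =ᶠ[𝓝 x] fun y => D2 z y e := by
    filter_upwards [hev] with y hy
    ext v
    have := (hy.isSymmSndFDerivAt (by simp)).eq v e
    simpa using this
  change _ = fderiv ℝ (fderiv ℝ fun y => fderiv ℝ z y e) x
  rw [(e1.trans e2).fderiv_eq]
  have h3 : HasFDerivAt (fun y => D2 z y e) ((fderiv ℝ (D2 z) x).flip e) x := by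
    have := hd3.clm_apply (hasFDerivAt_const e x)
    simpa using this
  rw [h3.fderiv]
  ext v u
  have := congrArg (fun T : E →L[ℝ] ℝ => T u) ((hz1.isSymmSndFDerivAt (by simp)).eq e v)
  simpa using this

/-- **Linear regularity.** -/
theorem linear_reg (hα : 0 < α) (hα1 : α ≤ 1) (hcce : AllCCE α E) (hU : IsOpen U) (k : ℕ) :
    ∀ {A : E → Bil E →L[ℝ] ℝ} {c g z : E → ℝ}, HC α U k A → HC α U k c → HC α U k g →
      (∀ x ∈ U, ∀ ℓ : E →L[ℝ] ℝ, ℓ ≠ 0 → 0 < A x (ℓ.smulRight ℓ)) → HC α U 2 z →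
      (∀ x ∈ U, A x (D2 z x) + c x * z x + g x = 0) → HC α U (k + 2) z := by
  induction k with
  | zero => intro A c g z _ _ _ _ hz _; exact hz
  | succ k ih =>
    intro A c g z hA hc hg hell hz heq
    have hA1 : HC α U 1 A := HC.mono hα hα1 hU (by omega) hA
    have hc1 : HC α U 1 c := HC.mono hα hα1 hU (by omega) hc
    have hg1 : HC α U 1 g := HC.mono hα hα1 hU (by omega) hg
    have hzC2 : ContDiffOn ℝ 2 z U := hz.contDiffOn hα hU
    -- the nonlinear form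
    have hder : ∀ p : Pt E, p.1 ∈ U → HasFDerivAt (fun p : Pt E => A p.1 p.2.2 + c p.1 * p.2.1 + g p.1)
        (((ContinuousLinearMap.id ℝ (Bil E →L[ℝ] ℝ)).precompR (Pt E) (A p.1)
            ((ContinuousLinearMap.snd ℝ ℝ (Bil E)).comp (ContinuousLinearMap.snd ℝ E (ℝ × Bil E))) +
          (ContinuousLinearMap.id ℝ (Bil E →L[ℝ] ℝ)).precompL (Pt E)
            ((fderiv ℝ A p.1).comp (ContinuousLinearMap.fst ℝ E (ℝ × Bil E))) p.2.2) +
        ((ContinuousLinearMap.mul ℝ ℝ).precompR (Pt E) (c p.1)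
            ((ContinuousLinearMap.fst ℝ ℝ (Bil E)).comp (ContinuousLinearMap.snd ℝ E (ℝ × Bil E))) +
          (ContinuousLinearMap.mul ℝ ℝ).precompL (Pt E)
            ((fderiv ℝ c p.1).comp (ContinuousLinearMap.fst ℝ E (ℝ × Bil E))) p.2.1) +
        (fderiv ℝ g p.1).comp (ContinuousLinearMap.fst ℝ E (ℝ × Bil E))) p := by
      intro p hp
      have hfst : HasFDerivAt (fun p : Pt E => p.1) (ContinuousLinearMap.fst ℝ E (ℝ × Bil E)) p :=
        hasFDerivAt_fst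
      have h22 : HasFDerivAt (fun p : Pt E => p.2.2)
          ((ContinuousLinearMap.snd ℝ ℝ (Bil E)).comp (ContinuousLinearMap.snd ℝ E (ℝ × Bil E))) p :=
        ((ContinuousLinearMap.snd ℝ ℝ (Bil E)).comp (ContinuousLinearMap.snd ℝ E (ℝ × Bil E))).hasFDerivAt
      have h21 : HasFDerivAt (fun p : Pt E => p.2.1)
          ((ContinuousLinearMap.fst ℝ ℝ (Bil E)).comp (ContinuousLinearMap.snd ℝ E (ℝ × Bil E))) p :=
        ((ContinuousLinearMap.fst ℝ ℝ (Bil E)).comp (ContinuousLinearMap.snd ℝ E (ℝ × Bil E))).hasFDerivAt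
      have hA' : HasFDerivAt (fun p : Pt E => A p.1) _ p := (hA1.1 p.1 hp).hasFDerivAt.comp p hfst
      have hc' : HasFDerivAt (fun p : Pt E => c p.1) _ p := (hc1.1 p.1 hp).hasFDerivAt.comp p hfst
      have hg' : HasFDerivAt (fun p : Pt E => g p.1) _ p := (hg1.1 p.1 hp).hasFDerivAt.comp p hfst
      exact (((ContinuousLinearMap.id ℝ (Bil E →L[ℝ] ℝ)).hasFDerivAt_of_bilinear hA' h22).add
        ((ContinuousLinearMap.mul ℝ ℝ).hasFDerivAt_of_bilinear hc' h21)).add hg'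
    have hopen : ∀ p : Pt E, p.1 ∈ U → ∀ᶠ q in 𝓝 p, q.1 ∈ U := fun p hp =>
      continuous_fst.continuousAt.eventually (hU.mem_nhds hp)
    have hz3 : HC α U 3 z := by
      refine reg_step hα hα1 hcce hU hzC2 hz.2.2
        (Φ := fun p : Pt E => A p.1 p.2.2 + c p.1 * p.2.1 + g p.1) ?_ ?_ heq ?_
      · intro x hx
        filter_upwards [hopen (jt z x) hx] with p hp using (hder p hp).differentiableAt
      · intro x hx
        have hxU : (jt z x).1 ∈ U := hx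
        have mA := mh_fst (p₀ := jt z x) hα (hA1.of_succ hα hα1 hU) hxU
        have mc := mh_fst (p₀ := jt z x) hα (hc1.of_succ hα hα1 hU) hxU
        have mA' := mh_fst (p₀ := jt z x) hα (F := E →L[ℝ] Bil E →L[ℝ] ℝ) hA1.2 hxU
        have mc' := mh_fst (p₀ := jt z x) hα (F := E →L[ℝ] ℝ) hc1.2 hxU
        have mg' := mh_fst (p₀ := jt z x) hα (F := E →L[ℝ] ℝ) hg1.2 hxU
        have m2 := mh_snd (α := α) (p₀ := jt z x)
        have m22 := m2.clm (ContinuousLinearMap.snd ℝ ℝ (Bil E))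
        have m21 := m2.clm (ContinuousLinearMap.fst ℝ ℝ (Bil E))
        have t1 := mA.bilin ((ContinuousLinearMap.id ℝ (Bil E →L[ℝ] ℝ)).precompR (Pt E))
          (mh_const ((ContinuousLinearMap.snd ℝ ℝ (Bil E)).comp (ContinuousLinearMap.snd ℝ E (ℝ × Bil E))))
        have t2 := MH.bilin (F := Pt E →L[ℝ] Bil E →L[ℝ] ℝ) (G := Bil E) (H := Pt E →L[ℝ] ℝ)
            ((ContinuousLinearMap.id ℝ (Bil E →L[ℝ] ℝ)).precompL (Pt E))
          (mA'.clm (G := Pt E →L[ℝ] Bil E →L[ℝ] ℝ)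
            ((ContinuousLinearMap.compL ℝ (Pt E) E (Bil E →L[ℝ] ℝ)).flip
            (ContinuousLinearMap.fst ℝ E (ℝ × Bil E)))) m22
        have t3 := mc.bilin ((ContinuousLinearMap.mul ℝ ℝ).precompR (Pt E))
          (mh_const ((ContinuousLinearMap.fst ℝ ℝ (Bil E)).comp (ContinuousLinearMap.snd ℝ E (ℝ × Bil E))))
        have t4 := MH.bilin (F := Pt E →L[ℝ] ℝ) (G := ℝ) (H := Pt E →L[ℝ] ℝ)
            ((ContinuousLinearMap.mul ℝ ℝ).precompL (Pt E))
          (mc'.clm (G := Pt E →L[ℝ] ℝ) ((ContinuousLinearMap.compL ℝ (Pt E) E ℝ).flip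
            (ContinuousLinearMap.fst ℝ E (ℝ × Bil E)))) m21
        have t5 := mg'.clm ((ContinuousLinearMap.compL ℝ (Pt E) E ℝ).flip
          (ContinuousLinearMap.fst ℝ E (ℝ × Bil E)))
        refine (((t1.add t2).add (t3.add t4)).add t5).congr ?_
        filter_upwards [hopen (jt z x) hx] with p hp
        exact (hder p hp).fderiv.symm
      · intro x hx ℓ hℓ
        rw [(hder (jt z x) hx).fderiv]
        have := hell x hx ℓ hℓ
        simpa [jt, ContinuousLinearMap.precompR_apply, ContinuousLinearMap.precompL_apply] using this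
    have hzk : HC α U (k + 2) z := ih (hA.of_succ hα hα1 hU) (hc.of_succ hα hα1 hU)
      (hg.of_succ hα hα1 hU) hell hz heq
    have hzC3 : ContDiffOn ℝ 3 z U := hz3.contDiffOn hα hU
    refine ⟨hz3.1, HC.of_apply hα hα1 hU (Module.finBasis ℝ E) fun i => ?_⟩
    set e := Module.finBasis ℝ E i with he
    have hze : HC α U 2 (fun x => fderiv ℝ z x e) :=
      hz3.2.clm hα hα1 hU (ContinuousLinearMap.apply ℝ ℝ e)
    have hD2k : HC α U k (D2 z) := hzk.2.2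
    have happ : ∀ {F : Type} [NormedAddCommGroup F] [NormedSpace ℝ F] {f : E → F},
        HC α U (k + 1) f → HC α U k (fun x => fderiv ℝ f x e) := fun {F} _ _ {f} hf =>
      hf.2.clm hα hα1 hU (ContinuousLinearMap.apply ℝ F e)
    have hge : HC α U k (fun x => (fderiv ℝ A x e) (D2 z x) + fderiv ℝ c x e * z x +
        fderiv ℝ g x e) := by
      have t1 := (happ hA).bilin hα hα1 hU (ContinuousLinearMap.id ℝ (Bil E →L[ℝ] ℝ)) hD2k
      have t2 := (happ hc).bilin hα hα1 hU (ContinuousLinearMap.mul ℝ ℝ)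
        (HC.mono hα hα1 hU (by omega : k ≤ k + 2) hzk)
      exact (t1.add hU t2).add hU (happ hg)
    refine ih (hA.of_succ hα hα1 hU) (hc.of_succ hα hα1 hU) hge hell hze fun x hx => ?_
    have hzd : HasFDerivAt (D2 z) (fderiv ℝ (D2 z) x) x := (hz3.2.2.1 x hx).hasFDerivAt
    have h1 := ((ContinuousLinearMap.id ℝ (Bil E →L[ℝ] ℝ)).hasFDerivAt_of_bilinear
      (hA1.1 x hx).hasFDerivAt hzd).add (((ContinuousLinearMap.mul ℝ ℝ).hasFDerivAt_of_bilinear
      (hc1.1 x hx).hasFDerivAt (hz3.1 x hx).hasFDerivAt)) |>.add (hg1.1 x hx).hasFDerivAt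
    have h2 : (fun x => A x (D2 z x) + c x * z x + g x) =ᶠ[𝓝 x] fun _ => 0 := by
      filter_upwards [hU.mem_nhds hx] with y hy using heq y hy
    have h3 := h1.fderiv
    have h4 : fderiv ℝ (fun x => A x (D2 z x) + c x * z x + g x) x = 0 := by
      rw [h2.fderiv_eq]; simp
    have h5 := congrArg (fun T : E →L[ℝ] ℝ => T e) (h3.symm.trans h4)
    rw [← fderiv_D2 (hzC3.contDiffAt (hU.mem_nhds hx)) e]
    simp [ContinuousLinearMap.precompR_apply, ContinuousLinearMap.precompL_apply] at h5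
    linarith

/-- **Regularity of solutions of nonlinear elliptic equations**: all Hölder classes. -/
theorem nonlinear_hc (hα : 0 < α) (hα1 : α ≤ 1) (hcce : AllCCE α E) (hU : IsOpen U) {w : E → ℝ}
    (hw : ContDiffOn ℝ 2 w U) (hw2 : LHol α (D2 w) U) {V : Set (Pt E)} (hV : IsOpen V)
    {Φ : Pt E → ℝ} (hΦ : ContDiffOn ℝ ∞ Φ V) (hmem : ∀ x ∈ U, jt w x ∈ V)
    (heq : ∀ x ∈ U, Φ (jt w x) = 0)
    (hell : ∀ x ∈ U, ∀ ℓ : E →L[ℝ] ℝ, ℓ ≠ 0 → 0 < fderiv ℝ Φ (jt w x) (0, 0, ℓ.smulRight ℓ))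
    (j : ℕ) : HC α U (j + 3) w := by
  have hΦc : ∀ p ∈ V, ContDiffAt ℝ ∞ Φ p := fun p hp => hΦ.contDiffAt (hV.mem_nhds hp)
  have hΦ' : ∀ p ∈ V, ContDiffAt ℝ ∞ (fderiv ℝ Φ) p := fun p hp =>
    (hΦc p hp).fderiv_right (by simp)
  induction j with
  | zero =>
    refine reg_step hα hα1 hcce hU hw hw2 (Φ := Φ) (fun x hx => ?_) (fun x hx => ?_) heq hell
    · filter_upwards [hV.mem_nhds (hmem x hx)] with p hp
      exact (hΦc p hp).differentiableAt (by simp)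
    · exact mh_of_contDiffAt hα1 ((hΦ' _ (hmem x hx)).of_le (by exact_mod_cast le_top))
  | succ j ih =>
    have hw3 : HC α U 3 w := HC.mono hα hα1 hU (by omega) ih
    have hw3' : ContDiffOn ℝ 3 w U := hw3.contDiffOn hα hU
    have hjt : HC α U (j + 1) (jt w) := by
      refine (hc_id hα1 hU).prodMk hα hα1 hU (HC.prodMk hα hα1 hU ?_ ?_)
      · exact HC.mono hα hα1 hU (by omega) ih
      · exact ih.2.2
    have hDΦ : HC α U (j + 1) (fun x => fderiv ℝ Φ (jt w x)) :=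
      HC.comp_smooth hα hα1 hU hV (fun p hp => (hΦ' p hp).of_le (by exact_mod_cast le_top)) hjt hmem
    refine ⟨ih.1, HC.of_apply hα hα1 hU (Module.finBasis ℝ E) fun i => ?_⟩
    set e := Module.finBasis ℝ E i with he
    have hze : HC α U 2 (fun x => fderiv ℝ w x e) :=
      hw3.2.clm hα hα1 hU (ContinuousLinearMap.apply ℝ ℝ e)
    have hA : HC α U (j + 1) (fun x => (fderiv ℝ Φ (jt w x)).comp (J : Bil E →L[ℝ] Pt E)) :=
      hDΦ.clm hα hα1 hU ((ContinuousLinearMap.compL ℝ (Bil E) (Pt E) ℝ).flip J)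
    have hc : HC α U (j + 1) (fun x => fderiv ℝ Φ (jt w x) (0, 1, 0)) :=
      hDΦ.clm hα hα1 hU (ContinuousLinearMap.apply ℝ ℝ ((0, 1, 0) : Pt E))
    have hg : HC α U (j + 1) (fun x => fderiv ℝ Φ (jt w x) (e, 0, 0)) :=
      hDΦ.clm hα hα1 hU (ContinuousLinearMap.apply ℝ ℝ ((e, 0, 0) : Pt E))
    refine linear_reg hα hα1 hcce hU (j + 1) hA hc hg (fun x hx ℓ hℓ => hell x hx ℓ hℓ) hze
      fun x hx => ?_
    have hj : HasFDerivAt (jt w) ((ContinuousLinearMap.id ℝ E).prod ((fderiv ℝ w x).prod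
        (fderiv ℝ (D2 w) x))) x :=
      (hasFDerivAt_id x).prodMk ((hw3.1 x hx).hasFDerivAt.prodMk (hw3.2.2.1 x hx).hasFDerivAt)
    have h1 := ((hΦc _ (hmem x hx)).differentiableAt (by simp)).hasFDerivAt.comp x hj
    have h2 : (fun x => Φ (jt w x)) =ᶠ[𝓝 x] fun _ => 0 := by
      filter_upwards [hU.mem_nhds hx] with y hy using heq y hy
    have h3 : (fderiv ℝ Φ (jt w x)).comp ((ContinuousLinearMap.id ℝ E).prod ((fderiv ℝ w x).prod
        (fderiv ℝ (D2 w) x))) = 0 := by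
      have h4 : fderiv ℝ (fun x => Φ (jt w x)) x = 0 := by rw [h2.fderiv_eq]; simp
      exact h1.fderiv.symm.trans h4
    have h5 := congrArg (fun T : E →L[ℝ] ℝ => T e) h3
    have h6 : fderiv ℝ Φ (jt w x) (e, fderiv ℝ w x e, fderiv ℝ (D2 w) x e) = 0 := by
      simpa using h5
    rw [fderiv_D2 (hw3'.contDiffAt (hU.mem_nhds hx)) e] at h6
    have h7 : ((e, fderiv ℝ w x e, D2 (fun y => fderiv ℝ w y e) x) : Pt E) =
        J (D2 (fun y => fderiv ℝ w y e) x) + fderiv ℝ w x e • ((0, 1, 0) : Pt E) +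
          ((e, 0, 0) : Pt E) := by
      simp
    rw [h7, map_add, map_add, map_smul, smul_eq_mul] at h6
    show fderiv ℝ Φ (jt w x) (J (D2 (fun y => fderiv ℝ w y e) x)) +
      fderiv ℝ Φ (jt w x) (0, 1, 0) * fderiv ℝ w x e + fderiv ℝ Φ (jt w x) (e, 0, 0) = 0
    rw [mul_comm (fderiv ℝ Φ (jt w x) (0, 1, 0))]
    exact h6

/-- **Regularity of solutions of nonlinear elliptic equations.** -/
theorem nonlinear_reg (hα : 0 < α) (hα1 : α ≤ 1) (hcce : AllCCE α E) (hU : IsOpen U) {w : E → ℝ}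
    (hw : ContDiffOn ℝ 2 w U) (hw2 : LHol α (D2 w) U) {V : Set (Pt E)} (hV : IsOpen V)
    {Φ : Pt E → ℝ} (hΦ : ContDiffOn ℝ ∞ Φ V) (hmem : ∀ x ∈ U, jt w x ∈ V)
    (heq : ∀ x ∈ U, Φ (jt w x) = 0)
    (hell : ∀ x ∈ U, ∀ ℓ : E →L[ℝ] ℝ, ℓ ≠ 0 → 0 < fderiv ℝ Φ (jt w x) (0, 0, ℓ.smulRight ℓ)) :
    ContDiffOn ℝ ∞ w U := by
  rw [contDiffOn_infty]
  intro n
  have h1 := nonlinear_hc hα hα1 hcce hU hw hw2 hV hΦ hmem heq hell n
  exact (HC.mono hα hα1 hU (by omega : n ≤ n + 3) h1).contDiffOn hα hU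

end Reg

end Vale.Agent.P272.K.R
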