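import Vale.Agent.P272.K.R.HC
import Mathlib.Analysis.Calculus.UniformLimitsDeriv
import Mathlib.Analysis.SpecificLimits.Basic

/-!
# Difference quotients

Uniformly Hölder families and dyadic difference quotients.
-/

open Set Metric Filter Topology

noncomputable section

namespace Vale.Agent.P272.K.R

section UH

set_option linter.unusedSectionVars false

variable {E F G H : Type*} [NormedAddCommGroup E] [NormedAddCommGroup F]
  [NormedSpace ℝ F] [NormedAddCommGroup G] [NormedSpace ℝ G] [NormedAddCommGroup H]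
  [NormedSpace ℝ H] {ι : Type*} {α : ℝ} {s t : Set E}

/-- A uniformly bounded and uniformly `α`-Hölder family of functions on `s`. -/
def UH (α : ℝ) (s : Set E) (f : ι → E → F) : Prop :=
  ∃ C, 0 ≤ C ∧ ∀ i, Hol α C (f i) s ∧ ∀ x ∈ s, ‖f i x‖ ≤ C

theorem UH.mono_set {f : ι → E → F} (hf : UH α t f) (hst : s ⊆ t) : UH α s f := by
  obtain ⟨C, hC, h⟩ := hf
  exact ⟨C, hC, fun i => ⟨(h i).1.mono hst, fun x hx => (h i).2 x (hst hx)⟩⟩

theorem UH.congr {f g : ι → E → F} (hf : UH α s f) (hfg : ∀ i, ∀ x ∈ s, f i x = g i x) :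
    UH α s g := by
  obtain ⟨C, hC, h⟩ := hf
  exact ⟨C, hC, fun i => ⟨(h i).1.congr (hfg i), fun x hx => by
    rw [← hfg i x hx]; exact (h i).2 x hx⟩⟩

theorem UH.mk' {f : ι → E → F} {A B : ℝ} (hA : ∀ i, ∀ x ∈ s, ‖f i x‖ ≤ A)
    (hB : ∀ i, Hol α B (f i) s) : UH α s f :=
  ⟨max (max A B) 0, le_max_right _ _, fun i =>
    ⟨(hB i).mono_const ((le_max_right _ _).trans (le_max_left _ _)), fun x hx =>
      (hA i x hx).trans ((le_max_left _ _).trans (le_max_left _ _))⟩⟩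

theorem UH.add {f g : ι → E → F} (hf : UH α s f) (hg : UH α s g) :
    UH α s (fun i x => f i x + g i x) := by
  obtain ⟨C, hC, h⟩ := hf
  obtain ⟨D, hD, h'⟩ := hg
  exact ⟨C + D, by positivity, fun i => ⟨(h i).1.add (h' i).1, fun x hx =>
    (norm_add_le _ _).trans (add_le_add ((h i).2 x hx) ((h' i).2 x hx))⟩⟩

theorem UH.neg {f : ι → E → F} (hf : UH α s f) : UH α s (fun i x => - f i x) := by
  obtain ⟨C, hC, h⟩ := hf
  exact ⟨C, hC, fun i => ⟨(h i).1.neg, fun x hx => by rw [norm_neg]; exact (h i).2 x hx⟩⟩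

theorem UH.bilin (L : F →L[ℝ] G →L[ℝ] H) {f : ι → E → F} {g : ι → E → G} (hf : UH α s f)
    (hg : UH α s g) : UH α s (fun i x => L (f i x) (g i x)) := by
  obtain ⟨C, hC, h⟩ := hf
  obtain ⟨D, hD, h'⟩ := hg
  refine UH.mk' (A := ‖L‖ * C * D) (B := ‖L‖ * (C * D + D * C)) (fun i x hx => ?_) fun i => ?_
  · refine (L.le_opNorm₂ _ _).trans (mul_le_mul (mul_le_mul_of_nonneg_left ((h i).2 x hx)
      (norm_nonneg L)) ((h' i).2 x hx) (norm_nonneg _) (by positivity))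
  · exact (h i).1.bilin L (h' i).1 (h i).2 (h' i).2

theorem UH.clm (L : F →L[ℝ] G) {f : ι → E → F} (hf : UH α s f) :
    UH α s (fun i x => L (f i x)) := by
  obtain ⟨C, hC, h⟩ := hf
  refine UH.mk' (A := ‖L‖ * C) (B := ‖L‖ * C) (fun i x hx => ?_) fun i => ?_
  · exact (L.le_opNorm _).trans (mul_le_mul_of_nonneg_left ((h i).2 x hx) (norm_nonneg _))
  · exact (h i).1.clm L

theorem UH.const {f : E → F} {C : ℝ} (hC : 0 ≤ C) (hf : Hol α C f s) (hb : ∀ x ∈ s, ‖f x‖ ≤ C) :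
    UH α s (fun _ : ι => f) := ⟨C, hC, fun _ => ⟨hf, hb⟩⟩

/-- Reindexing. -/
theorem UH.comp {κ : Type*} {f : ι → E → F} (hf : UH α s f) (σ : κ → ι) :
    UH α s (fun k => f (σ k)) := by
  obtain ⟨C, hC, h⟩ := hf
  exact ⟨C, hC, fun i => h (σ i)⟩

end UH

section DQ

variable {E F : Type*} [NormedAddCommGroup E] [NormedSpace ℝ E] [NormedAddCommGroup F]
  [NormedSpace ℝ F] {α : ℝ} {s t U : Set E}

/-- The difference quotient `(f (x + h e) - f x) / h`. -/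
def dq (e : E) (h : ℝ) (f : E → F) (x : E) : F := h⁻¹ • (f (x + h • e) - f x)

theorem Hol.dq {f : E → F} {e : E} {h C : ℝ} (hh : 0 < h)
    (hd : ∀ x ∈ U, DifferentiableAt ℝ f x) (hs : ∀ x ∈ s, ∀ τ ∈ Icc 0 h, x + τ • e ∈ U)
    (hf : Hol α C (fderiv ℝ f) U) : Hol α (C * ‖e‖) (dq e h f) s := by
  intro x hx y hy
  have hder : ∀ τ ∈ Icc 0 h, HasDerivWithinAt (fun τ : ℝ => f (x + τ • e) - f (y + τ • e))
      ((fderiv ℝ f (x + τ • e) - fderiv ℝ f (y + τ • e)) e) (Icc 0 h) τ := by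
    intro τ hτ
    have hline : ∀ z : E, HasDerivAt (fun τ : ℝ => z + τ • e) e τ := fun z => by
      simpa using ((hasDerivAt_id τ).smul_const e).const_add z
    have h1 := (hd _ (hs x hx τ hτ)).hasFDerivAt.comp_hasDerivAt τ (hline x)
    have h2 := (hd _ (hs y hy τ hτ)).hasFDerivAt.comp_hasDerivAt τ (hline y)
    exact (h1.sub h2).hasDerivWithinAt
  have hb : ∀ τ ∈ Ico 0 h, ‖(fderiv ℝ f (x + τ • e) - fderiv ℝ f (y + τ • e)) e‖ ≤
      C * ‖x - y‖ ^ α * ‖e‖ := by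
    intro τ hτ
    refine (ContinuousLinearMap.le_opNorm _ _).trans (mul_le_mul_of_nonneg_right ?_ (norm_nonneg _))
    have := hf _ (hs x hx τ ⟨hτ.1, hτ.2.le⟩) _ (hs y hy τ ⟨hτ.1, hτ.2.le⟩)
    simpa using this
  have key := norm_image_sub_le_of_norm_deriv_le_segment' hder hb h ⟨hh.le, le_rfl⟩
  have e1 : Vale.Agent.P272.K.R.dq e h f x - Vale.Agent.P272.K.R.dq e h f y =
      h⁻¹ • ((f (x + h • e) - f (y + h • e)) - (f (x + (0 : ℝ) • e) - f (y + (0 : ℝ) • e))) := by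
    simp only [Vale.Agent.P272.K.R.dq, zero_smul, add_zero, ← smul_sub]
    congr 1
    abel
  rw [e1, norm_smul, norm_inv, Real.norm_of_nonneg hh.le]
  calc _ ≤ h⁻¹ * (C * ‖x - y‖ ^ α * ‖e‖ * (h - 0)) :=
        mul_le_mul_of_nonneg_left key (inv_nonneg.2 hh.le)
    _ = C * ‖e‖ * ‖x - y‖ ^ α := by field_simp; ring

theorem norm_dq_le {f : E → F} {e : E} {h C : ℝ} (hh : 0 < h)
    (hd : ∀ x ∈ U, DifferentiableAt ℝ f x) {x : E} (hs : ∀ τ ∈ Icc 0 h, x + τ • e ∈ U)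
    (hf : ∀ y ∈ U, ‖fderiv ℝ f y‖ ≤ C) : ‖dq e h f x‖ ≤ C * ‖e‖ := by
  have hder : ∀ τ ∈ Icc 0 h, HasDerivWithinAt (fun τ : ℝ => f (x + τ • e))
      (fderiv ℝ f (x + τ • e) e) (Icc 0 h) τ := by
    intro τ hτ
    have hline : HasDerivAt (fun τ : ℝ => x + τ • e) e τ := by
      simpa using ((hasDerivAt_id τ).smul_const e).const_add x
    exact ((hd _ (hs τ hτ)).hasFDerivAt.comp_hasDerivAt τ hline).hasDerivWithinAt
  have hb : ∀ τ ∈ Ico 0 h, ‖fderiv ℝ f (x + τ • e) e‖ ≤ C * ‖e‖ := by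
    intro τ hτ
    exact (ContinuousLinearMap.le_opNorm _ _).trans (mul_le_mul_of_nonneg_right
      (hf _ (hs τ ⟨hτ.1, hτ.2.le⟩)) (norm_nonneg _))
  have key := norm_image_sub_le_of_norm_deriv_le_segment' hder hb h ⟨hh.le, le_rfl⟩
  rw [zero_smul, add_zero] at key
  rw [dq, norm_smul, norm_inv, Real.norm_of_nonneg hh.le]
  calc _ ≤ h⁻¹ * (C * ‖e‖ * (h - 0)) := mul_le_mul_of_nonneg_left key (inv_nonneg.2 hh.le)
    _ = C * ‖e‖ := by field_simp; ring

/-- Uniformly Hölder dyadic difference quotients converge uniformly. -/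
theorem dyadic_tendsto [CompleteSpace F] {f : E → F} {e : E} {h₀ C : ℝ} (hα : 0 < α) (hh : 0 < h₀)
    (hst : s ⊆ t) (hs : ∀ x ∈ s, ∀ k : ℕ, x + (h₀ / 2 ^ k) • e ∈ t)
    (hf : ∀ k : ℕ, Hol α C (dq e (h₀ / 2 ^ k) f) t) :
    ∃ Z : E → F, TendstoUniformlyOn (fun (k : ℕ) => dq e (h₀ / 2 ^ k) f) Z atTop s := by
  set r : ℝ := (1 / 2) ^ α with hr
  have hr1 : r < 1 := Real.rpow_lt_one (by norm_num) (by norm_num) hα
  have hr0 : 0 ≤ r := by positivity
  set K : ℝ := 2⁻¹ * (C * (h₀ / 2 * ‖e‖) ^ α) with hK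
  have hstep : ∀ x ∈ s, ∀ k : ℕ, dist (dq e (h₀ / 2 ^ k) f x) (dq e (h₀ / 2 ^ (k + 1)) f x) ≤
      K * r ^ k := by
    intro x hx k
    have e1 : dq e (h₀ / 2 ^ k) f x - dq e (h₀ / 2 ^ (k + 1)) f x =
        (2 : ℝ)⁻¹ • (dq e (h₀ / 2 ^ (k + 1)) f (x + (h₀ / 2 ^ (k + 1)) • e) -
          dq e (h₀ / 2 ^ (k + 1)) f x) := by
      set a : ℝ := h₀ / 2 ^ (k + 1) with ha
      have ha0 : a ≠ 0 := by positivity
      have h2 : h₀ / 2 ^ k = 2 * a := by rw [ha, pow_succ]; field_simp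
      rw [h2]
      simp only [dq]
      have h3 : x + (2 * a) • e = x + a • e + a • e := by rw [two_mul, add_smul, add_assoc]
      rw [h3, mul_inv]
      generalize a⁻¹ = b
      module
    rw [dist_eq_norm, e1, norm_smul]
    have h1 := hf (k + 1) _ (hs x hx (k + 1)) x (hst hx)
    have h2 : ‖x + (h₀ / 2 ^ (k + 1)) • e - x‖ = (h₀ / 2 * ‖e‖) * (1 / 2) ^ k := by
      rw [add_sub_cancel_left, norm_smul, Real.norm_of_nonneg (by positivity), pow_succ,
        one_div_pow]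
      field_simp
    rw [h2, Real.mul_rpow (by positivity) (by positivity)] at h1
    have h3 : (((1 : ℝ) / 2) ^ k) ^ α = r ^ k := by
      rw [hr, ← Real.rpow_natCast, ← Real.rpow_natCast, ← Real.rpow_mul (by norm_num),
        ← Real.rpow_mul (by norm_num), mul_comm]
    rw [h3] at h1
    calc _ ≤ ‖(2 : ℝ)⁻¹‖ * (C * ((h₀ / 2 * ‖e‖) ^ α * r ^ k)) :=
          mul_le_mul_of_nonneg_left h1 (norm_nonneg _)
      _ = K * r ^ k := by rw [hK]; norm_num; ring
  have hlim : ∀ x, ∃ z, x ∈ s → Tendsto (fun k : ℕ => dq e (h₀ / 2 ^ k) f x) atTop (𝓝 z) := by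
    intro x
    by_cases hx : x ∈ s
    · obtain ⟨z, hz⟩ := cauchySeq_tendsto_of_complete
        (cauchySeq_of_le_geometric r K hr1 (hstep x hx))
      exact ⟨z, fun _ => hz⟩
    · exact ⟨0, fun h => absurd h hx⟩
  choose Z hZ using hlim
  refine ⟨Z, ?_⟩
  rw [Metric.tendstoUniformlyOn_iff]
  intro ε hε
  have h0 : Tendsto (fun n : ℕ => K * r ^ n / (1 - r)) atTop (𝓝 0) := by
    have := ((tendsto_pow_atTop_nhds_zero_of_lt_one hr0 hr1).const_mul K).div_const (1 - r)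
    simpa using this
  filter_upwards [h0.eventually_lt_const hε] with n hn x hx
  rw [dist_comm]
  exact (dist_le_of_le_geometric_of_tendsto r K hr1 (hstep x hx) (hZ x hx) n).trans_lt hn

/-- The directional derivative is the limit of difference quotients. -/
theorem tendsto_dq {f : E → F} {e : E} {h₀ : ℝ} (hh : 0 < h₀) {x : E}
    (hf : DifferentiableAt ℝ f x) :
    Tendsto (fun k : ℕ => dq e (h₀ / 2 ^ k) f x) atTop (𝓝 (fderiv ℝ f x e)) := by
  have h1 : HasDerivAt (fun τ : ℝ => f (x + τ • e)) (fderiv ℝ f x e) 0 := by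
    have hline : HasDerivAt (fun τ : ℝ => x + τ • e) e 0 := by
      simpa using ((hasDerivAt_id (0 : ℝ)).smul_const e).const_add x
    have hf' : HasFDerivAt f (fderiv ℝ f x) (x + (0 : ℝ) • e) := by simpa using hf.hasFDerivAt
    exact hf'.comp_hasDerivAt 0 hline
  have h2 := h1.tendsto_slope_zero
  have h3 : Tendsto (fun k : ℕ => h₀ / 2 ^ k) atTop (𝓝[≠] 0) := by
    rw [tendsto_nhdsWithin_iff]
    refine ⟨?_, Eventually.of_forall fun k => by simp only [mem_compl_iff, mem_singleton_iff]; positivity⟩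
    have := (tendsto_pow_atTop_nhds_zero_of_lt_one (r := (1 / 2 : ℝ)) (by norm_num)
      (by norm_num)).const_mul h₀
    simpa [div_eq_mul_inv] using this
  refine (h2.comp h3).congr fun k => ?_
  simp [dq]

end DQ

section Limit

set_option linter.unusedSectionVars false

variable {E : Type} [NormedAddCommGroup E] [NormedSpace ℝ E] {α : ℝ}

theorem Hol.of_tendsto {F : Type*} [NormedAddCommGroup F] {f : ℕ → E → F} {g : E → F} {s : Set E}
    {C : ℝ} (hf : ∀ k, Hol α C (f k) s) (h : ∀ x ∈ s, Tendsto (fun k => f k x) atTop (𝓝 (g x))) :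
    Hol α C g s := fun x hx y hy =>
  le_of_tendsto ((h x hx).sub (h y hy)).norm (Eventually.of_forall fun k => hf k x hx y hy)

theorem lHol_of_ball {F : Type*} [NormedAddCommGroup F] {g : E → F} {x₀ : E} {r C : ℝ}
    (hC : 0 ≤ C) (hg : Hol α C g (ball x₀ r)) : LHol α g (ball x₀ r) := by
  intro x hx
  obtain ⟨ε, hε, hb⟩ := Metric.isOpen_ball.mem_nhds hx |> Metric.mem_nhds_iff.1
  exact ⟨ε, hε, hb, C, hC, hg.mono hb⟩

/-- If the difference quotients of `D²w` in direction `e` are uniformly Hölder, then the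
directional derivative `∂_e w` is of class `C^{2,α}`. -/
theorem hc_two_of_dq (hα : 0 < α) {w : E → ℝ} {x₀ e : E} {r R h₀ C : ℝ}
    (hh : 0 < h₀) (hr : r + h₀ * ‖e‖ ≤ R) (hw : ContDiffOn ℝ 2 w (ball x₀ R)) (hC : 0 ≤ C)
    (hf : ∀ k : ℕ, Hol α C (dq e (h₀ / 2 ^ k) (fderiv ℝ (fderiv ℝ w))) (ball x₀ R)) :
    HC α (ball x₀ r) 2 (fun x => fderiv ℝ w x e) := by
  have hrR : r ≤ R := by
    have : 0 ≤ h₀ * ‖e‖ := by positivity
    linarith
  have hR1 : ball x₀ r ⊆ ball x₀ R := ball_subset_ball hrR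
  have hw2 : ∀ x ∈ ball x₀ R, ContDiffAt ℝ 2 w x := fun x hx =>
    hw.contDiffAt (isOpen_ball.mem_nhds hx)
  have hw1 : ∀ x ∈ ball x₀ R, DifferentiableAt ℝ w x := fun x hx =>
    (hw2 x hx).differentiableAt (by norm_num)
  have hw1' : ∀ x ∈ ball x₀ R, DifferentiableAt ℝ (fderiv ℝ w) x := fun x hx =>
    ((hw2 x hx).fderiv_right (m := 1) (by norm_num)).differentiableAt (by norm_num)
  have hmem : ∀ x ∈ ball x₀ r, ∀ k : ℕ, x + (h₀ / 2 ^ k) • e ∈ ball x₀ R := by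
    intro x hx k
    have h1 : h₀ / 2 ^ k ≤ h₀ := div_le_self hh.le (one_le_pow₀ (by norm_num))
    rw [mem_ball_iff_norm] at hx ⊢
    calc ‖x + (h₀ / 2 ^ k) • e - x₀‖ = ‖(x - x₀) + (h₀ / 2 ^ k) • e‖ := by congr 1; abel
      _ ≤ ‖x - x₀‖ + (h₀ / 2 ^ k) * ‖e‖ := by
        refine (norm_add_le _ _).trans ?_
        rw [norm_smul, Real.norm_of_nonneg (by positivity)]
      _ < r + h₀ * ‖e‖ := add_lt_add_of_lt_of_le hx
        (mul_le_mul_of_nonneg_right h1 (norm_nonneg _))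
      _ ≤ R := hr
  obtain ⟨Z, hZ⟩ := dyadic_tendsto (s := ball x₀ r) hα hh hR1 hmem hf
  have hder : ∀ x ∈ ball x₀ r, HasFDerivAt (fun x => fderiv ℝ (fderiv ℝ w) x e) (Z x) x := by
    intro x hx
    refine hasFDerivAt_of_tendstoUniformlyOn (f := fun k : ℕ => dq e (h₀ / 2 ^ k) (fderiv ℝ w))
      isOpen_ball hZ (fun k y hy => ?_) (fun y hy => tendsto_dq hh (hw1' y (hR1 hy))) hx
    have h1 := (hw1' y (hR1 hy)).hasFDerivAt
    have h2 : HasFDerivAt (fun y => fderiv ℝ w (y + (h₀ / 2 ^ k) • e))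
        (fderiv ℝ (fderiv ℝ w) (y + (h₀ / 2 ^ k) • e)) y :=
      (hasFDerivAt_comp_add_right _).2 (hw1' _ (hmem y hy k)).hasFDerivAt
    exact (h2.fun_sub h1).fun_const_smul _
  have hZH : Hol α C Z (ball x₀ r) :=
    Hol.of_tendsto (fun k => (hf k).mono hR1) fun x hx => hZ.tendsto_at hx
  have hfd : ∀ x ∈ ball x₀ r, HasFDerivAt (fun x => fderiv ℝ w x e)
      (fderiv ℝ (fderiv ℝ w) x e) x := by
    intro x hx
    have h1 := (hw1' x (hR1 hx)).hasFDerivAt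
    have h2 : HasFDerivAt (fun x => fderiv ℝ w x e) ((fderiv ℝ (fderiv ℝ w) x).flip e) x := by
      have := h1.clm_apply (hasFDerivAt_const e x)
      simpa using this
    have h3 : (fderiv ℝ (fderiv ℝ w) x).flip e = fderiv ℝ (fderiv ℝ w) x e := by
      ext v
      have := ((hw2 x (hR1 hx)).isSymmSndFDerivAt (by simp)).eq v e
      simpa using this
    rwa [h3] at h2
  refine ⟨fun x hx => (hfd x hx).differentiableAt, ?_⟩
  refine HC.congr isOpen_ball (f := fun x => fderiv ℝ (fderiv ℝ w) x e) ?_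
    fun x hx => (hfd x hx).fderiv.symm
  refine ⟨fun x hx => (hder x hx).differentiableAt, ?_⟩
  refine HC.congr isOpen_ball (f := Z) ?_ fun x hx => (hder x hx).fderiv.symm
  exact lHol_of_ball hC hZH

end Limit

end Vale.Agent.P272.K.R
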