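import Vale.Agent.P272.K.R.DQ
import Mathlib.Analysis.Calculus.BumpFunction.FiniteDimension
import Mathlib.Analysis.Normed.Lp.PiLp
import Mathlib.Analysis.SpecificLimits.Basic

/-!
# Freezing of coefficients

From the constant coefficient estimate `[D²v]_α ≤ C [B D²v]_α` for `v ∈ C²_c` to uniform interior
estimates for families of operators close to `B`.
-/

set_option maxSynthPendingDepth 3
set_option linter.unusedSectionVars false

open Set Metric Filter Topology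

noncomputable section

namespace Vale.Agent.P272.K.R

/-- Bilinear forms. -/
abbrev Bil (E : Type*) [NormedAddCommGroup E] [NormedSpace ℝ E] : Type _ := E →L[ℝ] E →L[ℝ] ℝ

/-- Second derivative. -/
abbrev D2 {E : Type*} [NormedAddCommGroup E] [NormedSpace ℝ E] (v : E → ℝ) : E → Bil E :=
  fderiv ℝ (fderiv ℝ v)

/-- The constant coefficient estimate for the functional `B` on bilinear forms. -/
def CCE {E : Type*} [NormedAddCommGroup E] [NormedSpace ℝ E] (α C : ℝ) (B : Bil E →L[ℝ] ℝ) : Prop :=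
  ∀ v : E → ℝ, ContDiff ℝ 2 v → HasCompactSupport v → ∀ K, 0 ≤ K → Hol α K (fun x => B (D2 v x)) univ →
    Hol α (C * K) (D2 v) univ

section Extend

variable {E F : Type*} [NormedAddCommGroup E] [NormedSpace ℝ E] [NormedAddCommGroup F]

/-- Extension by zero. -/
theorem Hol.extend {α K : ℝ} (hα : 0 ≤ α) (hK : 0 ≤ K) {k : E → F} {x₀ : E} {ρ r : ℝ} (hρ : ρ < r)
    (hk : Hol α K k (ball x₀ r)) (h0 : ∀ x, x ∉ closedBall x₀ ρ → k x = 0) : Hol α K k univ := by
  have key : ∀ x ∈ ball x₀ r, ∀ y, y ∉ ball x₀ r → ‖k x‖ ≤ K * ‖x - y‖ ^ α := by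
    intro x hx y hy
    by_cases hxρ : x ∈ closedBall x₀ ρ
    · have hc : ContinuousOn (fun t : ℝ => ‖x + t • (y - x) - x₀‖) (Icc 0 1) := by fun_prop
      have h1 : (ρ + r) / 2 ∈ Icc (‖x + (0 : ℝ) • (y - x) - x₀‖) (‖x + (1 : ℝ) • (y - x) - x₀‖) := by
        have h2 : ‖x - x₀‖ ≤ ρ := mem_closedBall_iff_norm.1 hxρ
        have h3 : r ≤ ‖y - x₀‖ := by
          by_contra h; exact hy (mem_ball_iff_norm.2 (not_le.1 h))
        constructor
        · simp only [zero_smul, add_zero]; linarith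
        · simp only [one_smul, add_sub_cancel]; linarith
      obtain ⟨t, ht, htz⟩ := intermediate_value_Icc zero_le_one hc h1
      set z := x + t • (y - x) with hz
      have hzr : z ∈ ball x₀ r := by
        rw [mem_ball_iff_norm]; simp only at htz; rw [htz]; linarith
      have hz0 : k z = 0 := h0 z (by
        rw [mem_closedBall_iff_norm]; simp only at htz; rw [htz]; linarith)
      have h4 := hk x hx z hzr
      rw [hz0, sub_zero] at h4
      refine h4.trans (mul_le_mul_of_nonneg_left (Real.rpow_le_rpow (norm_nonneg _) ?_ hα) hK)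
      have h5 : x - z = t • (x - y) := by
        rw [hz, sub_add_eq_sub_sub, sub_self, zero_sub, ← smul_neg, neg_sub]
      rw [h5, norm_smul, Real.norm_of_nonneg ht.1]
      exact mul_le_of_le_one_left (norm_nonneg _) ht.2
    · rw [h0 x hxρ, norm_zero]; positivity
  intro x _ y _
  by_cases hx : x ∈ ball x₀ r
  · by_cases hy : y ∈ ball x₀ r
    · exact hk x hx y hy
    · rw [h0 y (fun h => hy (closedBall_subset_ball hρ h)), sub_zero]
      exact key x hx y hy
  · rw [h0 x (fun h => hx (closedBall_subset_ball hρ h)), zero_sub, norm_neg]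
    by_cases hy : y ∈ ball x₀ r
    · rw [norm_sub_rev]; exact key y hy x hx
    · rw [h0 y (fun h => hy (closedBall_subset_ball hρ h)), norm_zero]; positivity

theorem Hol.norm_le {α K : ℝ} (hα : 0 ≤ α) (hK : 0 ≤ K) {k : E → F} {x₀ : E} {r : ℝ}
    (hk : Hol α K k (ball x₀ r)) : ∀ x ∈ ball x₀ r, ‖k x‖ ≤ ‖k x₀‖ + K * r ^ α := by
  intro x hx
  have hr : 0 < r := pos_of_mem_ball hx
  have h1 := hk x hx x₀ (mem_ball_self hr)
  have h2 : ‖x - x₀‖ ^ α ≤ r ^ α :=
    Real.rpow_le_rpow (norm_nonneg _) (mem_ball_iff_norm.1 hx).le hα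
  calc ‖k x‖ = ‖(k x - k x₀) + k x₀‖ := by simp
    _ ≤ ‖k x - k x₀‖ + ‖k x₀‖ := norm_add_le _ _
    _ ≤ _ := by nlinarith [mul_le_mul_of_nonneg_left h2 hK]

variable [NormedSpace ℝ F]

/-- Smooth functions are Hölder on balls. -/
theorem uh_of_contDiff [FiniteDimensional ℝ E] {ι : Type*} {α : ℝ} (hα : 0 < α) (hα1 : α ≤ 1)
    {f : E → F} (hf : ContDiff ℝ 1 f) (x₀ : E) (r : ℝ) : UH α (ball x₀ r) (fun _ : ι => f) := by
  have hcpt : IsCompact (closedBall x₀ r) := isCompact_closedBall _ _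
  obtain ⟨A, hA⟩ := hcpt.exists_bound_of_continuousOn hf.continuous.continuousOn
  obtain ⟨B, hB⟩ := hcpt.exists_bound_of_continuousOn
    (hf.continuous_fderiv (by norm_num)).continuousOn
  refine UH.mk' (A := A) (B := |B| * (2 * |r|) ^ (1 - α)) (fun _ x hx => hA x (ball_subset_closedBall hx))
    fun _ x hx y hy => ?_
  have h1 : ‖f x - f y‖ ≤ |B| * ‖x - y‖ :=
    (convex_ball x₀ r).norm_image_sub_le_of_norm_fderiv_le
      (fun z _ => hf.differentiable (by norm_num) z)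
      (fun z hz => (hB z (ball_subset_closedBall hz)).trans (le_abs_self _)) hy hx
  have h2 : ‖x - y‖ ≤ 2 * |r| := by
    have h3 := mem_ball_iff_norm.1 hx
    have h4 := mem_ball_iff_norm.1 hy
    calc ‖x - y‖ = ‖(x - x₀) - (y - x₀)‖ := by congr 1; abel
      _ ≤ ‖x - x₀‖ + ‖y - x₀‖ := norm_sub_le _ _
      _ ≤ 2 * |r| := by have := le_abs_self r; linarith
  have h5 : ‖x - y‖ ≤ (2 * |r|) ^ (1 - α) * ‖x - y‖ ^ α := by
    rcases (norm_nonneg (x - y)).eq_or_lt with h0 | h0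
    · rw [← h0, Real.zero_rpow hα.ne']; simp
    · calc ‖x - y‖ = ‖x - y‖ ^ (1 - α) * ‖x - y‖ ^ α := by
            rw [← Real.rpow_add h0]; simp
        _ ≤ _ := mul_le_mul_of_nonneg_right (Real.rpow_le_rpow h0.le h2 (by linarith))
            (by positivity)
  calc ‖f x - f y‖ ≤ |B| * ‖x - y‖ := h1
    _ ≤ |B| * ((2 * |r|) ^ (1 - α) * ‖x - y‖ ^ α) := mul_le_mul_of_nonneg_left h5 (abs_nonneg _)
    _ = _ := by ring

end Extend

section Perturb

variable {E : Type*} [NormedAddCommGroup E] [NormedSpace ℝ E] [FiniteDimensional ℝ E]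

/-- Sup bound from the Hölder bound for functions supported in a ball. -/
theorem Hol.sup_of_support [Nontrivial E] {F : Type*} [NormedAddCommGroup F] {α T : ℝ}
    (hα : 0 ≤ α) (hT : 0 ≤ T) {k : E → F} {x₀ : E} {ρ r : ℝ} (hρ : ρ < r)
    (hk : Hol α T k univ) (h0 : ∀ x, x ∉ closedBall x₀ ρ → k x = 0) :
    ∀ x ∈ ball x₀ r, ‖k x‖ ≤ T * (3 * r) ^ α := by
  intro x hx
  have hr : 0 < r := pos_of_mem_ball hx
  obtain ⟨v, hv⟩ := exists_norm_eq E (c := 2 * r) (by positivity)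
  have h1 : x₀ + v ∉ closedBall x₀ ρ := by
    rw [mem_closedBall_iff_norm, add_sub_cancel_left, hv]; linarith
  have h2 := hk x (mem_univ _) (x₀ + v) (mem_univ _)
  rw [h0 _ h1, sub_zero] at h2
  refine h2.trans (mul_le_mul_of_nonneg_left (Real.rpow_le_rpow (norm_nonneg _) ?_ hα) hT)
  calc ‖x - (x₀ + v)‖ = ‖(x - x₀) - v‖ := by congr 1; abel
    _ ≤ ‖x - x₀‖ + ‖v‖ := norm_sub_le _ _
    _ ≤ 3 * r := by rw [hv]; have := mem_ball_iff_norm.1 hx; linarith

/-- Operators with small oscillation. -/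
theorem perturb {α : ℝ} (hα : 0 < α) {C : ℝ} (hC : 0 ≤ C) {B : Bil E →L[ℝ] ℝ} (hB : CCE α C B)
    {x₀ : E} {ρ r : ℝ} (hρ : ρ < r) {A : E → Bil E →L[ℝ] ℝ} {ε M : ℝ} (hM : 0 ≤ M)
    (hε : 0 ≤ ε) (hAB : ∀ x ∈ ball x₀ r, ‖A x - B‖ ≤ ε) (hA : Hol α M A (ball x₀ r))
    (hsmall : C * (ε + M * (3 * r) ^ α) ≤ 1 / 2) {v : E → ℝ} (hv : ContDiff ℝ 2 v)
    (hvc : HasCompactSupport v) (hvs : ∀ x, x ∉ closedBall x₀ ρ → D2 v x = 0) {T : ℝ}
    (hT : 0 ≤ T) (hvT : Hol α T (D2 v) univ) {G : ℝ} (hG : 0 ≤ G)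
    (hg : Hol α G (fun x => A x (D2 v x)) (ball x₀ r)) : Hol α (2 * C * G) (D2 v) univ := by
  rcases subsingleton_or_nontrivial E with hs | hn
  · intro x _ y _
    rw [Subsingleton.elim x y, sub_self, norm_zero]; positivity
  by_cases hr : r ≤ 0
  · have h0 : ∀ x, D2 v x = 0 := fun x => hvs x (by
      rw [mem_closedBall]; intro h; have := dist_nonneg (x := x) (y := x₀); linarith)
    intro x _ y _
    rw [h0 x, h0 y, sub_self, norm_zero]; positivity
  push Not at hr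
  -- one step
  have step : ∀ T, 0 ≤ T → Hol α T (D2 v) univ → Hol α (C * G + T / 2) (D2 v) univ := by
    intro T hT hvT
    have hsup := hvT.sup_of_support hα.le hT hρ hvs
    have h1 : Hol α ((ε + M * (3 * r) ^ α) * T) (fun x => (B - A x) (D2 v x)) (ball x₀ r) := by
      intro x hx y hy
      have e : (B - A x) (D2 v x) - (B - A y) (D2 v y) =
          (B - A x) (D2 v x - D2 v y) + (A y - A x) (D2 v y) := by
        simp only [sub_apply, map_sub]; ring
      rw [e]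
      have h2 : ‖(B - A x) (D2 v x - D2 v y)‖ ≤ ε * (T * ‖x - y‖ ^ α) := by
        refine (ContinuousLinearMap.le_opNorm _ _).trans (mul_le_mul ?_
          (hvT x (mem_univ _) y (mem_univ _)) (norm_nonneg _) hε)
        rw [norm_sub_rev]; exact hAB x hx
      have h3 : ‖(A y - A x) (D2 v y)‖ ≤ (M * ‖x - y‖ ^ α) * (T * (3 * r) ^ α) := by
        refine (ContinuousLinearMap.le_opNorm _ _).trans (mul_le_mul ?_
          (hsup y hy) (norm_nonneg _) (by positivity))
        rw [norm_sub_rev]; exact hA x hx y hy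
      calc _ ≤ _ := norm_add_le _ _
        _ ≤ ε * (T * ‖x - y‖ ^ α) + (M * ‖x - y‖ ^ α) * (T * (3 * r) ^ α) := add_le_add h2 h3
        _ = _ := by ring
    have h4 : Hol α (G + (ε + M * (3 * r) ^ α) * T) (fun x => B (D2 v x)) (ball x₀ r) := by
      refine (hg.add h1).congr fun x _ => ?_
      simp
    have h5 : Hol α (G + (ε + M * (3 * r) ^ α) * T) (fun x => B (D2 v x)) univ :=
      h4.extend hα.le (by positivity) hρ fun x hx => by rw [hvs x hx, map_zero]
    refine (hB v hv hvc _ (by positivity) h5).mono_const ?_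
    nlinarith [mul_le_mul_of_nonneg_right hsmall hT]
  have iter : ∀ n : ℕ, Hol α (2 * C * G * (1 - (1 / 2) ^ n) + T * (1 / 2) ^ n) (D2 v) univ := by
    intro n
    induction n with
    | zero => simpa using hvT
    | succ n ih =>
      have h1 : (0 : ℝ) ≤ 1 - (1 / 2) ^ n := sub_nonneg.2 (pow_le_one₀ (by norm_num) (by norm_num))
      refine (step _ (by positivity) ih).mono_const (le_of_eq ?_)
      rw [pow_succ]; ring
  intro x hx y hy
  have hlim : Tendsto (fun n : ℕ => (2 * C * G * (1 - (1 / 2) ^ n) + T * (1 / 2) ^ n) * ‖x - y‖ ^ α)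
      atTop (𝓝 ((2 * C * G * (1 - 0) + T * 0) * ‖x - y‖ ^ α)) := by
    have h := tendsto_pow_atTop_nhds_zero_of_lt_one (r := (1 / 2 : ℝ)) (by norm_num) (by norm_num)
    exact (((h.const_sub 1).const_mul _).add (h.const_mul T)).mul_const _
  have := ge_of_tendsto' hlim fun n => iter n x hx y hy
  simpa using this

end Perturb

section Interior

variable {E : Type*} [NormedAddCommGroup E] [NormedSpace ℝ E] [FiniteDimensional ℝ E]

/-- second derivative of a product -/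
theorem D2_mul {f g : E → ℝ} {x : E} (hf : ContDiffAt ℝ 2 f x) (hg : ContDiffAt ℝ 2 g x) :
    D2 (fun y => f y * g y) x = (f x • D2 g x + (fderiv ℝ f x).smulRight (fderiv ℝ g x)) +
      (g x • D2 f x + (fderiv ℝ g x).smulRight (fderiv ℝ f x)) := by
  have hf1 : ∀ᶠ y in 𝓝 x, DifferentiableAt ℝ f y :=
    (hf.eventually (by simp)).mono fun y hy => hy.differentiableAt (by norm_num)
  have hg1 : ∀ᶠ y in 𝓝 x, DifferentiableAt ℝ g y :=
    (hg.eventually (by simp)).mono fun y hy => hy.differentiableAt (by norm_num)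
  have e1 : fderiv ℝ (fun y => f y * g y) =ᶠ[𝓝 x]
      fun y => f y • fderiv ℝ g y + g y • fderiv ℝ f y := by
    filter_upwards [hf1, hg1] with y hy hy'
    exact fderiv_mul hy hy'
  have hf2 : HasFDerivAt (fderiv ℝ f) (D2 f x) x :=
    ((hf.fderiv_right (m := 1) (by norm_num)).differentiableAt (by norm_num)).hasFDerivAt
  have hg2 : HasFDerivAt (fderiv ℝ g) (D2 g x) x :=
    ((hg.fderiv_right (m := 1) (by norm_num)).differentiableAt (by norm_num)).hasFDerivAt
  rw [D2, e1.fderiv_eq]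
  exact ((hf1.self_of_nhds.hasFDerivAt.smul hg2).add (hg1.self_of_nhds.hasFDerivAt.smul hf2)).fderiv

/-- Uniform Hölder bound for the second derivatives of products with a fixed smooth function. -/
theorem UH.D2_mul {ι : Type*} {α : ℝ} {s : Set E} (hs : IsOpen s) {η : E → ℝ}
    (hη : ContDiff ℝ 2 η) (hη0 : UH α s (fun _ : ι => η)) (hη1 : UH α s (fun _ : ι => fderiv ℝ η))
    (hη2 : UH α s (fun _ : ι => D2 η)) {w : ι → E → ℝ} (hw : ∀ i, ContDiffOn ℝ 2 (w i) s)
    (h0 : UH α s w) (h1 : UH α s (fun i => fderiv ℝ (w i))) (h2 : UH α s (fun i => D2 (w i))) :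
    UH α s (fun i => D2 (fun y => η y * w i y)) := by
  have e1 := hη0.bilin (ContinuousLinearMap.lsmul ℝ ℝ : ℝ →L[ℝ] Bil E →L[ℝ] Bil E) h2
  have e2 := hη1.bilin (ContinuousLinearMap.smulRightL ℝ E (E →L[ℝ] ℝ)) h1
  have e3 := h0.bilin (ContinuousLinearMap.lsmul ℝ ℝ : ℝ →L[ℝ] Bil E →L[ℝ] Bil E) hη2
  have e4 := h1.bilin (ContinuousLinearMap.smulRightL ℝ E (E →L[ℝ] ℝ)) hη1
  refine ((e1.add e2).add (e3.add e4)).congr fun i x hx => ?_
  rw [Vale.Agent.P272.K.R.D2_mul hη.contDiffAt ((hw i).contDiffAt (hs.mem_nhds hx))]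
  rfl

/-- **Interior estimate for families** of equations `A_i D²w_i = g_i` with small oscillation. -/
theorem interior_family {α : ℝ} (hα : 0 < α) (hα1 : α ≤ 1) {C : ℝ} (hC : 0 ≤ C)
    {B : Bil E →L[ℝ] ℝ} (hB : CCE α C B) {ι : Type*} {x₀ : E} {r : ℝ} (hr : 0 < r)
    {A : ι → E → Bil E →L[ℝ] ℝ} {w : ι → E → ℝ} {ε M : ℝ} (hε : 0 ≤ ε) (hM : 0 ≤ M)
    (hAB : ∀ i, ∀ x ∈ ball x₀ r, ‖A i x - B‖ ≤ ε) (hA : ∀ i, Hol α M (A i) (ball x₀ r))
    (hsmall : C * (ε + M * (3 * r) ^ α) ≤ 1 / 2)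
    (hw : ∀ i, ContDiffOn ℝ 2 (w i) (ball x₀ r))
    (hw0 : UH α (ball x₀ r) w) (hw1 : UH α (ball x₀ r) (fun i => fderiv ℝ (w i)))
    (hw2 : ∀ i, ∃ T, 0 ≤ T ∧ Hol α T (D2 (w i)) (ball x₀ r))
    (hg : UH α (ball x₀ r) (fun i x => A i x (D2 (w i) x))) :
    ∃ C', 0 ≤ C' ∧ ∀ i, Hol α C' (D2 (w i)) (ball x₀ (r / 2)) := by
  let η : ContDiffBump x₀ := ⟨r / 2, 3 * r / 4, by positivity, by linarith⟩
  have hηs : ContDiff ℝ 3 η := η.contDiff
  have hη2' : ContDiff ℝ 2 η := η.contDiff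
  have hρ : 3 * r / 4 < r := by linarith
  have hη0u : UH α (ball x₀ r) (fun _ : Unit => (η : E → ℝ)) :=
    uh_of_contDiff hα hα1 η.contDiff x₀ r
  have hη1u : UH α (ball x₀ r) (fun _ : Unit => fderiv ℝ (η : E → ℝ)) :=
    uh_of_contDiff hα hα1 (hη2'.fderiv_right (by norm_num)) x₀ r
  have hη2u : UH α (ball x₀ r) (fun _ : Unit => D2 (η : E → ℝ)) :=
    uh_of_contDiff hα hα1 ((hηs.fderiv_right (m := 2) (by norm_num)).fderiv_right (by norm_num)) x₀ r
  have hη0 : UH α (ball x₀ r) (fun _ : ι => (η : E → ℝ)) := hη0u.comp fun _ => ()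
  have hη1 : UH α (ball x₀ r) (fun _ : ι => fderiv ℝ (η : E → ℝ)) := hη1u.comp fun _ => ()
  have hη2 : UH α (ball x₀ r) (fun _ : ι => D2 (η : E → ℝ)) := hη2u.comp fun _ => ()
  have hA' : UH α (ball x₀ r) A := UH.mk' (A := ‖B‖ + ε) (fun i x hx => by
    calc ‖A i x‖ = ‖B + (A i x - B)‖ := by congr 1; abel
      _ ≤ ‖B‖ + ‖A i x - B‖ := norm_add_le _ _
      _ ≤ _ := by linarith [hAB i x hx]) hA
  -- the cut-off functions
  have hzero : ∀ i, ∀ x, x ∉ closedBall x₀ (3 * r / 4) → (fun y => η y * w i y) =ᶠ[𝓝 x] fun _ => 0 := by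
    intro i x hx
    filter_upwards [isClosed_closedBall.isOpen_compl.mem_nhds hx] with y hy
    have : η y = 0 := by
      have h1 : y ∉ Function.support η := by
        rw [η.support_eq]; exact fun h => hy (ball_subset_closedBall h)
      simpa using h1
    rw [this, zero_mul]
  have hv : ∀ i, ContDiff ℝ 2 (fun y => η y * w i y) := by
    intro i
    rw [contDiff_iff_contDiffAt]
    intro x
    by_cases hx : x ∈ closedBall x₀ (3 * r / 4)
    · exact hη2'.contDiffAt.mul ((hw i).contDiffAt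
        (isOpen_ball.mem_nhds (closedBall_subset_ball hρ hx)))
    · exact contDiffAt_const.congr_of_eventuallyEq (hzero i x hx)
  have hvc : ∀ i, HasCompactSupport (fun y => η y * w i y) := fun i =>
    η.hasCompactSupport.mul_right
  have hvs : ∀ i x, x ∉ closedBall x₀ (3 * r / 4) → D2 (fun y => η y * w i y) x = 0 := by
    intro i x hx
    have h1 : ∀ᶠ y in 𝓝 x, fderiv ℝ (fun y => η y * w i y) y = 0 := by
      filter_upwards [(hzero i x hx).eventuallyEq_nhds] with y hy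
      rw [hy.fderiv_eq]; simp
    have h2 : fderiv ℝ (fun y => η y * w i y) =ᶠ[𝓝 x] fun _ => 0 := h1
    rw [D2, h2.fderiv_eq]; simp
  have hvT : ∀ i, ∃ T, 0 ≤ T ∧ Hol α T (D2 (fun y => η y * w i y)) univ := by
    intro i
    obtain ⟨T, hT, hTw⟩ := hw2 i
    have h2 : UH α (ball x₀ r) (fun _ : Unit => D2 (w i)) :=
      UH.mk' (fun _ x hx => hTw.norm_le hα.le hT x hx) (fun _ => hTw)
    have h3 := UH.D2_mul (ι := Unit) isOpen_ball hη2' hη0u hη1u hη2u (w := fun _ => w i)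
      (fun _ => hw i) (hw0.comp fun _ => i) (hw1.comp fun _ => i) h2
    obtain ⟨T', hT', h4⟩ := h3
    exact ⟨T', hT', (h4 ()).1.extend hα.le hT' hρ (hvs i)⟩
  have hg' : UH α (ball x₀ r) (fun i x => A i x (D2 (fun y => η y * w i y) x)) := by
    have e1 := hη0.bilin (ContinuousLinearMap.lsmul ℝ ℝ : ℝ →L[ℝ] ℝ →L[ℝ] ℝ) hg
    have e2 := hA'.bilin (ContinuousLinearMap.id ℝ (Bil E →L[ℝ] ℝ))
      (hη1.bilin (ContinuousLinearMap.smulRightL ℝ E (E →L[ℝ] ℝ)) hw1)
    have e3 := hw0.bilin (ContinuousLinearMap.lsmul ℝ ℝ : ℝ →L[ℝ] ℝ →L[ℝ] ℝ)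
      (hA'.bilin (ContinuousLinearMap.id ℝ (Bil E →L[ℝ] ℝ)) hη2)
    have e4 := hA'.bilin (ContinuousLinearMap.id ℝ (Bil E →L[ℝ] ℝ))
      (hw1.bilin (ContinuousLinearMap.smulRightL ℝ E (E →L[ℝ] ℝ)) hη1)
    refine ((e1.add e2).add (e3.add e4)).congr fun i x hx => ?_
    rw [Vale.Agent.P272.K.R.D2_mul hη2'.contDiffAt ((hw i).contDiffAt (isOpen_ball.mem_nhds hx))]
    simp only [map_add, map_smul]
    rfl
  obtain ⟨G, hG, hGg⟩ := hg'
  refine ⟨2 * C * G, by positivity, fun i => ?_⟩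
  obtain ⟨T, hT, hTv⟩ := hvT i
  have h5 := perturb hα hC hB hρ hM hε (hAB i) (hA i) hsmall (hv i) (hvc i) (hvs i) hT hTv hG (hGg i).1
  refine (h5.mono (subset_univ _)).congr fun x hx => ?_
  have h6 : (fun y => η y * w i y) =ᶠ[𝓝 x] w i := by
    filter_upwards [isOpen_ball.mem_nhds hx] with y hy
    rw [η.one_of_mem_closedBall (ball_subset_closedBall hy), one_mul]
  have h7 : fderiv ℝ (fun y => η y * w i y) =ᶠ[𝓝 x] fderiv ℝ (w i) := h6.fderiv
  exact h7.fderiv_eq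

end Interior

end Vale.Agent.P272.K.R
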