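import Mathlib.Analysis.Calculus.ContDiff.Operations
import Mathlib.Analysis.Calculus.ContDiff.FiniteDimension
import Mathlib.Analysis.Calculus.MeanValue
import Mathlib.Analysis.SpecialFunctions.Pow.Real
import Mathlib.Analysis.SpecialFunctions.Pow.Continuity
import Mathlib.Analysis.Calculus.FDeriv.Symmetric

/-!
# Hölder classes

`Hol α C f s`: `f` is `α`-Hölder on `s` with constant `C`.
`LHol α f U`: `f` is locally `α`-Hölder on `U`.
`HC α U k f`: `f` is of class `C^{k,α}` locally on (the open set) `U`.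
-/

open Set Metric Filter Topology

noncomputable section

namespace Vale.Agent.P272.K.R

universe u

section Hol

variable {E F G : Type*} [NormedAddCommGroup E] [NormedAddCommGroup F] [NormedAddCommGroup G]

/-- `f` is `α`-Hölder on `s` with constant `C`. -/
def Hol (α C : ℝ) (f : E → F) (s : Set E) : Prop :=
  ∀ x ∈ s, ∀ y ∈ s, ‖f x - f y‖ ≤ C * ‖x - y‖ ^ α

theorem Hol.mono {α C : ℝ} {f : E → F} {s t : Set E} (h : Hol α C f t) (hst : s ⊆ t) :
    Hol α C f s := fun x hx y hy => h x (hst hx) y (hst hy)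

theorem Hol.mono_const {α C C' : ℝ} {f : E → F} {s : Set E} (h : Hol α C f s) (hC : C ≤ C') :
    Hol α C' f s := fun x hx y hy =>
  (h x hx y hy).trans (mul_le_mul_of_nonneg_right hC (Real.rpow_nonneg (norm_nonneg _) _))

theorem Hol.congr {α C : ℝ} {f g : E → F} {s : Set E} (h : Hol α C f s)
    (hfg : ∀ x ∈ s, f x = g x) : Hol α C g s := fun x hx y hy => by
  rw [← hfg x hx, ← hfg y hy]; exact h x hx y hy

theorem hol_const (α : ℝ) (c : F) (s : Set E) : Hol α 0 (fun _ => c) s := fun x _ y _ => by simp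

theorem Hol.add {α C D : ℝ} {f g : E → F} {s : Set E} (hf : Hol α C f s) (hg : Hol α D g s) :
    Hol α (C + D) (fun x => f x + g x) s := fun x hx y hy => by
  have e : f x + g x - (f y + g y) = (f x - f y) + (g x - g y) := by abel
  rw [e, add_mul]
  exact (norm_add_le _ _).trans (add_le_add (hf x hx y hy) (hg x hx y hy))

theorem Hol.neg {α C : ℝ} {f : E → F} {s : Set E} (hf : Hol α C f s) :
    Hol α C (fun x => - f x) s := fun x hx y hy => by
  have e : - f x - - f y = -(f x - f y) := by abel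
  rw [e, norm_neg]; exact hf x hx y hy

theorem Hol.sub {α C D : ℝ} {f g : E → F} {s : Set E} (hf : Hol α C f s) (hg : Hol α D g s) :
    Hol α (C + D) (fun x => f x - g x) s := by
  simpa [sub_eq_add_neg] using hf.add hg.neg

/-- Hölder continuity implies continuity. -/
theorem Hol.continuousOn {α C : ℝ} (hα : 0 < α) {f : E → F} {s : Set E} (hf : Hol α C f s) :
    ContinuousOn f s := by
  intro x hx
  rw [ContinuousWithinAt, tendsto_iff_norm_sub_tendsto_zero]
  have h1 : Tendsto (fun y => C * ‖y - x‖ ^ α) (𝓝[s] x) (𝓝 0) := by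
    have h2 : Tendsto (fun y : E => ‖y - x‖) (𝓝[s] x) (𝓝 0) := by
      have : Tendsto (fun y : E => ‖y - x‖) (𝓝 x) (𝓝 ‖x - x‖) :=
        (continuous_id.sub continuous_const).norm.tendsto x
      simpa using this.mono_left nhdsWithin_le_nhds
    have h3 : Tendsto (fun t : ℝ => t ^ α) (𝓝 0) (𝓝 0) := by
      have := (Real.continuous_rpow_const hα.le).tendsto 0
      rwa [Real.zero_rpow hα.ne'] at this
    simpa using (h3.comp h2).const_mul C
  refine squeeze_zero' (Eventually.of_forall fun y => norm_nonneg _) ?_ h1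
  filter_upwards [self_mem_nhdsWithin] with y hy using hf y hy x hx

end Hol

section HolR

variable {E F G H : Type*} [NormedAddCommGroup E] [NormedAddCommGroup F]
  [NormedSpace ℝ F] [NormedAddCommGroup G] [NormedSpace ℝ G] [NormedAddCommGroup H]
  [NormedSpace ℝ H]

/-- Bilinear maps of bounded Hölder functions are Hölder. -/
theorem Hol.bilin (L : F →L[ℝ] G →L[ℝ] H) {α C D a b : ℝ} {f : E → F} {g : E → G} {s : Set E}
    (hf : Hol α C f s) (hg : Hol α D g s) (ha : ∀ x ∈ s, ‖f x‖ ≤ a) (hb : ∀ x ∈ s, ‖g x‖ ≤ b) :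
    Hol α (‖L‖ * (a * D + b * C)) (fun x => L (f x) (g x)) s := fun x hx y hy => by
  have e : L (f x) (g x) - L (f y) (g y) = L (f x) (g x - g y) + L (f x - f y) (g y) := by
    simp [map_sub]
  rw [e]
  have h1 : ‖L (f x) (g x - g y)‖ ≤ ‖L‖ * a * (D * ‖x - y‖ ^ α) :=
    (L.le_opNorm₂ _ _).trans (mul_le_mul (mul_le_mul_of_nonneg_left (ha x hx) (norm_nonneg L))
      (hg x hx y hy) (norm_nonneg _)
      (mul_nonneg (norm_nonneg L) ((norm_nonneg (f x)).trans (ha x hx))))
  have h2 : ‖L (f x - f y) (g y)‖ ≤ ‖L‖ * (C * ‖x - y‖ ^ α) * b :=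
    (L.le_opNorm₂ _ _).trans (mul_le_mul (mul_le_mul_of_nonneg_left (hf x hx y hy) (norm_nonneg L))
      (hb y hy) (norm_nonneg _)
      (mul_nonneg (norm_nonneg L) ((norm_nonneg (f x - f y)).trans (hf x hx y hy))))
  calc _ ≤ _ := norm_add_le _ _
    _ ≤ ‖L‖ * a * (D * ‖x - y‖ ^ α) + ‖L‖ * (C * ‖x - y‖ ^ α) * b := add_le_add h1 h2
    _ = _ := by ring

theorem Hol.clm (L : F →L[ℝ] G) {α C : ℝ} {f : E → F} {s : Set E} (hf : Hol α C f s) :
    Hol α (‖L‖ * C) (fun x => L (f x)) s := fun x hx y hy => by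
  rw [← map_sub, mul_assoc]
  exact (L.le_opNorm _).trans (mul_le_mul_of_nonneg_left (hf x hx y hy) (norm_nonneg _))

end HolR

section LHol

variable {E F G : Type*} [NormedAddCommGroup E] [NormedAddCommGroup F] [NormedAddCommGroup G]

/-- `f` is locally `α`-Hölder on `U`. -/
def LHol (α : ℝ) (f : E → F) (U : Set E) : Prop :=
  ∀ x ∈ U, ∃ r > 0, ball x r ⊆ U ∧ ∃ C, 0 ≤ C ∧ Hol α C f (ball x r)

theorem LHol.congr {α : ℝ} {f g : E → F} {U : Set E} (h : LHol α f U)
    (hfg : ∀ x ∈ U, f x = g x) : LHol α g U := fun x hx => by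
  obtain ⟨r, hr, hU, C, hC, hf⟩ := h x hx
  exact ⟨r, hr, hU, C, hC, hf.congr fun y hy => hfg y (hU hy)⟩

theorem LHol.continuousOn {α : ℝ} (hα : 0 < α) {f : E → F} {U : Set E} (h : LHol α f U) :
    ContinuousOn f U := fun x hx => by
  obtain ⟨r, hr, _, C, _, hf⟩ := h x hx
  exact ((hf.continuousOn hα).continuousAt (ball_mem_nhds x hr)).continuousWithinAt

theorem LHol.exists_bound {α : ℝ} (hα : 0 < α) {f : E → F} {U : Set E} (h : LHol α f U) {x : E}
    (hx : x ∈ U) : ∃ r > 0, ball x r ⊆ U ∧ ∃ C, 0 ≤ C ∧ Hol α C f (ball x r) ∧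
      ∀ y ∈ ball x r, ‖f y‖ ≤ C := by
  obtain ⟨r, hr, hU, C, hC, hf⟩ := h x hx
  refine ⟨min r 1, lt_min hr one_pos, (ball_subset_ball (min_le_left _ _)).trans hU,
    C + ‖f x‖, by positivity,
    (hf.mono (ball_subset_ball (min_le_left _ _))).mono_const (by simp), fun y hy => ?_⟩
  have h1 := hf y (ball_subset_ball (min_le_left _ _) hy) x (mem_ball_self hr)
  have h2 : ‖y - x‖ ^ α ≤ 1 := by
    refine Real.rpow_le_one (norm_nonneg _) ?_ hα.le
    have := mem_ball_iff_norm.1 hy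
    exact (this.trans_le (min_le_right _ _)).le
  have h3 : C * ‖y - x‖ ^ α ≤ C := mul_le_of_le_one_right hC h2
  calc ‖f y‖ = ‖(f y - f x) + f x‖ := by simp
    _ ≤ ‖f y - f x‖ + ‖f x‖ := norm_add_le _ _
    _ ≤ C + ‖f x‖ := by linarith

end LHol

section HC

variable {E : Type u} [NormedAddCommGroup E] [NormedSpace ℝ E]

/-- `f` is locally of class `C^{k,α}` on the open set `U`. -/
def HC (α : ℝ) (U : Set E) : ℕ → ∀ {F : Type u} [NormedAddCommGroup F] [NormedSpace ℝ F],
    (E → F) → Prop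
  | 0, _, _, _, f => LHol α f U
  | k + 1, _, _, _, f => (∀ x ∈ U, DifferentiableAt ℝ f x) ∧ HC α U k (fderiv ℝ f)

variable {F G H : Type u} [NormedAddCommGroup F] [NormedSpace ℝ F] [NormedAddCommGroup G]
  [NormedSpace ℝ G] [NormedAddCommGroup H] [NormedSpace ℝ H] {α : ℝ} {U : Set E}

theorem HC.zero_iff {f : E → F} : HC α U 0 f ↔ LHol α f U := Iff.rfl

theorem HC.succ_iff {f : E → F} {k : ℕ} :
    HC α U (k + 1) f ↔ (∀ x ∈ U, DifferentiableAt ℝ f x) ∧ HC α U k (fderiv ℝ f) := Iff.rfl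

theorem HC.congr (hU : IsOpen U) {k : ℕ} : ∀ {F : Type u} [NormedAddCommGroup F]
    [NormedSpace ℝ F] {f g : E → F}, HC α U k f → (∀ x ∈ U, f x = g x) → HC α U k g := by
  induction k with
  | zero => intro F _ _ f g h hfg; exact LHol.congr h hfg
  | succ k ih =>
    intro F _ _ f g h hfg
    have he : ∀ x ∈ U, f =ᶠ[𝓝 x] g := fun x hx => by
      filter_upwards [hU.mem_nhds hx] with y hy using hfg y hy
    exact ⟨fun x hx => (h.1 x hx).congr_of_eventuallyEq (he x hx).symm,
      ih h.2 fun x hx => (he x hx).fderiv_eq⟩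

theorem HC.contDiffOn (hα : 0 < α) (hU : IsOpen U) {k : ℕ} : ∀ {F : Type u}
    [NormedAddCommGroup F] [NormedSpace ℝ F] {f : E → F}, HC α U k f → ContDiffOn ℝ k f U := by
  induction k with
  | zero =>
    intro F _ _ f h
    have h1 : ContDiffOn ℝ 0 f U := contDiffOn_zero.2 (LHol.continuousOn hα h)
    simpa using h1
  | succ k ih =>
    intro F _ _ f h
    push_cast
    rw [contDiffOn_succ_iff_fderiv_of_isOpen hU]
    exact ⟨fun x hx => (h.1 x hx).differentiableWithinAt, by simp, ih h.2⟩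

theorem HC.continuousOn (hα : 0 < α) (hU : IsOpen U) {k : ℕ} {f : E → F} (h : HC α U k f) :
    ContinuousOn f U := (h.contDiffOn hα hU).continuousOn

/-- A `C^1` function is locally Hölder. -/
theorem lHol_of_fderiv (hα1 : α ≤ 1) (hU : IsOpen U) {f : E → F}
    (hf : ∀ x ∈ U, DifferentiableAt ℝ f x) (hf' : ContinuousOn (fderiv ℝ f) U) : LHol α f U := by
  intro x hx
  have hc : ContinuousAt (fderiv ℝ f) x := hf'.continuousAt (hU.mem_nhds hx)
  have hev : ∀ᶠ y in 𝓝 x, ‖fderiv ℝ f y‖ < ‖fderiv ℝ f x‖ + 1 :=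
    hc.norm.eventually_lt_const (lt_add_one ‖fderiv ℝ f x‖)
  obtain ⟨r, hr, hb⟩ := Metric.mem_nhds_iff.1 hev
  obtain ⟨r', hr', hb'⟩ := Metric.mem_nhds_iff.1 (hU.mem_nhds hx)
  set ρ := min (min r r') (1 / 2) with hρ
  have hρ0 : 0 < ρ := lt_min (lt_min hr hr') (by norm_num)
  have hs1 : ball x ρ ⊆ ball x r := ball_subset_ball ((min_le_left _ _).trans (min_le_left _ _))
  have hs2 : ball x ρ ⊆ U := (ball_subset_ball ((min_le_left _ _).trans (min_le_right _ _))).trans hb'
  refine ⟨ρ, hρ0, hs2, ‖fderiv ℝ f x‖ + 1, by positivity, fun y hy z hz => ?_⟩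
  have h1 : ‖f y - f z‖ ≤ (‖fderiv ℝ f x‖ + 1) * ‖y - z‖ :=
    (convex_ball x ρ).norm_image_sub_le_of_norm_fderiv_le (fun w hw => hf w (hs2 hw))
      (fun w hw => (show ‖fderiv ℝ f w‖ < ‖fderiv ℝ f x‖ + 1 from hb (hs1 hw)).le) hz hy
  have h2 : ‖y - z‖ ≤ 1 := by
    have := dist_triangle_right y z x
    have h3 := mem_ball.1 hy
    have h4 := mem_ball.1 hz
    have h5 : ρ ≤ 1 / 2 := min_le_right _ _
    rw [← dist_eq_norm]; linarith
  have h3 : ‖y - z‖ ≤ ‖y - z‖ ^ α := by
    rcases (norm_nonneg (y - z)).eq_or_lt with h0 | h0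
    · rw [← h0]; exact Real.rpow_nonneg le_rfl _
    · calc ‖y - z‖ = ‖y - z‖ ^ (1 : ℝ) := (Real.rpow_one _).symm
        _ ≤ _ := Real.rpow_le_rpow_of_exponent_ge h0 h2 hα1
  exact h1.trans (mul_le_mul_of_nonneg_left h3 (by positivity))

theorem HC.of_succ (hα : 0 < α) (hα1 : α ≤ 1) (hU : IsOpen U) {k : ℕ} : ∀ {F : Type u}
    [NormedAddCommGroup F] [NormedSpace ℝ F] {f : E → F}, HC α U (k + 1) f → HC α U k f := by
  induction k with
  | zero => intro F _ _ f h; exact lHol_of_fderiv hα1 hU h.1 (h.2.continuousOn hα hU)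
  | succ k ih => intro F _ _ f h; exact ⟨h.1, ih h.2⟩

theorem HC.mono (hα : 0 < α) (hα1 : α ≤ 1) (hU : IsOpen U) {k l : ℕ} (hkl : k ≤ l) {f : E → F}
    (h : HC α U l f) : HC α U k f := by
  induction hkl with
  | refl => exact h
  | step _ ih => exact ih (HC.of_succ hα hα1 hU h)

theorem HC.mono_set {V : Set E} (hVo : IsOpen V) (hV : V ⊆ U) {k : ℕ} :
    ∀ {F : Type u} [NormedAddCommGroup F] [NormedSpace ℝ F] {f : E → F},
    HC α U k f → HC α V k f := by
  induction k with
  | zero =>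
    intro F _ _ f h x hx
    obtain ⟨r, hr, hU', C, hC, hf⟩ := h x (hV hx)
    obtain ⟨r', hr', hb'⟩ := Metric.mem_nhds_iff.1 (hVo.mem_nhds hx)
    exact ⟨min r r', lt_min hr hr', (ball_subset_ball (min_le_right _ _)).trans hb', C, hC,
      hf.mono (ball_subset_ball (min_le_left _ _))⟩
  | succ k ih => intro F _ _ f h; exact ⟨fun x hx => h.1 x (hV hx), ih h.2⟩

/-- `HC` is a local property. -/
theorem HC.of_local {k : ℕ} : ∀ {F : Type u} [NormedAddCommGroup F] [NormedSpace ℝ F]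
    {f : E → F}, (∀ x ∈ U, ∃ r > 0, ball x r ⊆ U ∧ HC α (ball x r) k f) → HC α U k f := by
  induction k with
  | zero =>
    intro F _ _ f h x hx
    obtain ⟨r, hr, hb, hf⟩ := h x hx
    obtain ⟨r', hr', hb', C, hC, hf'⟩ := hf x (mem_ball_self hr)
    exact ⟨r', hr', hb'.trans hb, C, hC, hf'⟩
  | succ k ih =>
    intro F _ _ f h
    refine ⟨fun x hx => ?_, ih fun x hx => ?_⟩
    · obtain ⟨r, hr, hb, hf⟩ := h x hx
      exact hf.1 x (mem_ball_self hr)
    · obtain ⟨r, hr, hb, hf⟩ := h x hx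
      exact ⟨r, hr, hb, hf.2⟩

theorem HC.add (hU : IsOpen U) {k : ℕ} : ∀ {F : Type u} [NormedAddCommGroup F]
    [NormedSpace ℝ F] {f g : E → F}, HC α U k f → HC α U k g →
    HC α U k (fun x => f x + g x) := by
  induction k with
  | zero =>
    intro F _ _ f g hf hg x hx
    obtain ⟨r, hr, hb, C, hC, hf'⟩ := hf x hx
    obtain ⟨r', hr', hb', C', hC', hg'⟩ := hg x hx
    exact ⟨min r r', lt_min hr hr', (ball_subset_ball (min_le_left _ _)).trans hb, C + C',
      by positivity, (hf'.mono (ball_subset_ball (min_le_left _ _))).add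
        (hg'.mono (ball_subset_ball (min_le_right _ _)))⟩
  | succ k ih =>
    intro F _ _ f g hf hg
    refine ⟨fun x hx => (hf.1 x hx).add (hg.1 x hx), ?_⟩
    exact HC.congr hU (ih hf.2 hg.2) fun x hx => (fderiv_fun_add (hf.1 x hx) (hg.1 x hx)).symm

theorem hc_const (c : F) {k : ℕ} (hU : IsOpen U) : HC α U k (fun _ : E => c) := by
  induction k generalizing F with
  | zero =>
    intro x hx
    obtain ⟨r', hr', hb'⟩ := Metric.mem_nhds_iff.1 (hU.mem_nhds hx)
    exact ⟨r', hr', hb', 0, le_rfl, hol_const _ _ _⟩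
  | succ k ih =>
    refine ⟨fun x _ => differentiableAt_const _, ?_⟩
    have : fderiv ℝ (fun _ : E => c) = fun _ => (0 : E →L[ℝ] F) := by
      ext1 x; simp
    rw [this]; exact ih _

/-- Bilinear maps preserve `HC`. -/
theorem HC.bilin (hα : 0 < α) (hα1 : α ≤ 1) (hU : IsOpen U) {k : ℕ} : ∀ {F G H : Type u}
    [NormedAddCommGroup F] [NormedSpace ℝ F] [NormedAddCommGroup G] [NormedSpace ℝ G]
    [NormedAddCommGroup H] [NormedSpace ℝ H] (L : F →L[ℝ] G →L[ℝ] H) {f : E → F} {g : E → G},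
    HC α U k f → HC α U k g → HC α U k (fun x => L (f x) (g x)) := by
  induction k with
  | zero =>
    intro F G H _ _ _ _ _ _ L f g hf hg x hx
    obtain ⟨r, hr, hb, C, hC, hf', hfb⟩ := LHol.exists_bound hα hf hx
    obtain ⟨r', hr', hb', C', hC', hg', hgb⟩ := LHol.exists_bound hα hg hx
    refine ⟨min r r', lt_min hr hr', (ball_subset_ball (min_le_left _ _)).trans hb,
      ‖L‖ * (C * C' + C' * C), by positivity, ?_⟩
    exact (hf'.mono (ball_subset_ball (min_le_left _ _))).bilin L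
      (hg'.mono (ball_subset_ball (min_le_right _ _)))
      (fun y hy => hfb y (ball_subset_ball (min_le_left _ _) hy))
      (fun y hy => hgb y (ball_subset_ball (min_le_right _ _) hy))
  | succ k ih =>
    intro F G H _ _ _ _ _ _ L f g hf hg
    have hd : ∀ x ∈ U, HasFDerivAt (fun y => L (f y) (g y))
        (L.precompR E (f x) (fderiv ℝ g x) + L.precompL E (fderiv ℝ f x) (g x)) x := fun x hx =>
      L.hasFDerivAt_of_bilinear (hf.1 x hx).hasFDerivAt (hg.1 x hx).hasFDerivAt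
    refine ⟨fun x hx => (hd x hx).differentiableAt, ?_⟩
    refine HC.congr hU (f := fun x => L.precompR E (f x) (fderiv ℝ g x) +
      L.precompL E (fderiv ℝ f x) (g x)) ?_ fun x hx => (hd x hx).fderiv.symm
    exact (ih _ (HC.of_succ hα hα1 hU hf) hg.2).add hU (ih _ hf.2 (HC.of_succ hα hα1 hU hg))

/-- Composition with a smooth function. -/
theorem HC.comp_smooth (hα : 0 < α) (hα1 : α ≤ 1) (hU : IsOpen U) {k : ℕ} : ∀ {F G : Type u}
    [NormedAddCommGroup F] [NormedSpace ℝ F] [NormedAddCommGroup G] [NormedSpace ℝ G]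
    {V : Set F} (_ : IsOpen V) {φ : F → G} (_ : ∀ y ∈ V, ContDiffAt ℝ (k + 1 : ℕ) φ y)
    {f : E → F}, HC α U k f → (∀ x ∈ U, f x ∈ V) → HC α U k (fun x => φ (f x)) := by
  induction k with
  | zero =>
    intro F G _ _ _ _ V hV φ hφ f hf hfV x hx
    have hl : LHol 1 φ V := lHol_of_fderiv le_rfl hV
      (fun y hy => (hφ y hy).differentiableAt (by norm_num))
      (fun y hy => ((hφ y hy).fderiv_right (m := 0) (by norm_num)).continuousAt.continuousWithinAt)
    obtain ⟨ρ, hρ, hρV, L, hL, hLφ⟩ := hl (f x) (hfV x hx)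
    obtain ⟨r, hr, hb, C, hC, hf'⟩ := hf x hx
    have hc : ContinuousAt f x := (hf'.continuousOn hα).continuousAt (ball_mem_nhds x hr)
    obtain ⟨r', hr', hb'⟩ := Metric.mem_nhds_iff.1 (hc.preimage_mem_nhds (ball_mem_nhds _ hρ))
    refine ⟨min r r', lt_min hr hr', (ball_subset_ball (min_le_left _ _)).trans hb,
      L * C, by positivity, fun y hy z hz => ?_⟩
    have h1 := hLφ (f y) (hb' (ball_subset_ball (min_le_right _ _) hy)) (f z)
      (hb' (ball_subset_ball (min_le_right _ _) hz))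
    rw [Real.rpow_one] at h1
    have h2 := hf' y (ball_subset_ball (min_le_left _ _) hy) z
      (ball_subset_ball (min_le_left _ _) hz)
    rw [mul_assoc]
    exact h1.trans (mul_le_mul_of_nonneg_left h2 hL)
  | succ k ih =>
    intro F G _ _ _ _ V hV φ hφ f hf hfV
    have hφd : ∀ y ∈ V, DifferentiableAt ℝ φ y := fun y hy =>
      (hφ y hy).differentiableAt (by simp)
    have hd : ∀ x ∈ U, HasFDerivAt (fun y => φ (f y))
        ((fderiv ℝ φ (f x)).comp (fderiv ℝ f x)) x := fun x hx =>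
      (hφd _ (hfV x hx)).hasFDerivAt.comp x (hf.1 x hx).hasFDerivAt
    refine ⟨fun x hx => (hd x hx).differentiableAt, ?_⟩
    refine HC.congr hU (f := fun x => ContinuousLinearMap.compL ℝ E F G (fderiv ℝ φ (f x))
      (fderiv ℝ f x)) ?_ fun x hx => (hd x hx).fderiv.symm
    refine HC.bilin hα hα1 hU _ (ih hV (φ := fderiv ℝ φ) (fun y hy => ?_)
      (HC.of_succ hα hα1 hU hf) hfV) hf.2
    exact (hφ y hy).fderiv_right (by norm_cast)

theorem HC.clm (hα : 0 < α) (hα1 : α ≤ 1) (hU : IsOpen U) {k : ℕ} (L : F →L[ℝ] G) {f : E → F}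
    (hf : HC α U k f) : HC α U k (fun x => L (f x)) :=
  HC.comp_smooth hα hα1 hU isOpen_univ (fun _ _ => L.contDiff.contDiffAt) hf fun _ _ => mem_univ _

theorem hc_id {k : ℕ} (hα1 : α ≤ 1) (hU : IsOpen U) :
    HC α U k (fun x : E => x) := by
  cases k with
  | zero =>
    exact lHol_of_fderiv hα1 hU (fun x _ => differentiableAt_id) (by
      have : fderiv ℝ (fun x : E => x) = fun _ => ContinuousLinearMap.id ℝ E := by
        ext1 x; simp
      rw [this]; exact continuousOn_const)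
  | succ k =>
    refine ⟨fun x _ => differentiableAt_id, ?_⟩
    have : fderiv ℝ (fun x : E => x) = fun _ => ContinuousLinearMap.id ℝ E := by
      ext1 x; simp
    rw [this]; exact hc_const _ hU

theorem HC.of_contDiff (hα : 0 < α) (hα1 : α ≤ 1) (hU : IsOpen U) {k : ℕ} {f : E → F}
    (hf : ∀ x ∈ U, ContDiffAt ℝ (k + 1 : ℕ) f x) : HC α U k f :=
  HC.comp_smooth hα hα1 hU hU hf (hc_id hα1 hU) fun _ hx => hx

theorem HC.prodMk (hα : 0 < α) (hα1 : α ≤ 1) (hU : IsOpen U) {k : ℕ} {f : E → F} {g : E → G}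
    (hf : HC α U k f) (hg : HC α U k g) : HC α U k (fun x => (f x, g x)) := by
  have := ((hf.clm hα hα1 hU (ContinuousLinearMap.inl ℝ F G)).add hU
    (hg.clm hα hα1 hU (ContinuousLinearMap.inr ℝ F G)))
  simpa using this

theorem HC.sum (hU : IsOpen U) {k : ℕ} {ι : Type*} (s : Finset ι) {f : ι → E → F}
    (hf : ∀ i ∈ s, HC α U k (f i)) : HC α U k (fun x => ∑ i ∈ s, f i x) := by
  classical
  induction s using Finset.induction_on with
  | empty => simpa using hc_const (0 : F) hU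
  | insert i s hi ih =>
    simp only [Finset.sum_insert hi]
    exact (hf i (by simp)).add hU (ih fun j hj => hf j (by simp [hj]))

/-- A function with values in linear maps on a finite-dimensional space is `HC` when its values
on a basis are. -/
theorem HC.of_apply (hα : 0 < α) (hα1 : α ≤ 1) (hU : IsOpen U) {k : ℕ} [FiniteDimensional ℝ F]
    {ι : Type*} [Fintype ι] (b : Module.Basis ι ℝ F) {f : E → F →L[ℝ] G}
    (hf : ∀ i, HC α U k (fun x => f x (b i))) : HC α U k f := by
  have h1 : ∀ x, f x = ∑ i, (ContinuousLinearMap.smulRightL ℝ F G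
      (LinearMap.toContinuousLinearMap (b.coord i))) (f x (b i)) := by
    intro x
    ext v
    conv_lhs => rw [← b.sum_repr v, map_sum]
    simp
  have h2 : HC α U k (fun x => ∑ i, (ContinuousLinearMap.smulRightL ℝ F G
      (LinearMap.toContinuousLinearMap (b.coord i))) (f x (b i))) :=
    HC.sum hU _ fun i _ => (hf i).clm hα hα1 hU _
  exact h2.congr hU fun x _ => (h1 x).symm

end HC

end Vale.Agent.P272.K.R
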