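import Vale.Agent.P272.K.R.Freeze
import Mathlib.MeasureTheory.Integral.IntervalIntegral.FundThmCalculus

/-!
# One step of regularity

`C^{2,α}` solutions of elliptic equations `Φ(x, w, D²w) = 0` are `C^{3,α}`.
-/

set_option maxSynthPendingDepth 3
set_option linter.unusedSectionVars false

open Set Metric Filter Topology MeasureTheory

noncomputable section

namespace Vale.Agent.P272.K.R

section Avg

variable {P : Type*} [NormedAddCommGroup P] [NormedSpace ℝ P] {Φ : P → ℝ}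

/-- The average of the derivative along a segment. -/
def avgD (Φ : P → ℝ) (p v : P) : P →L[ℝ] ℝ := ∫ t in (0 : ℝ)..1, fderiv ℝ Φ (p + t • v)

theorem avgD_apply {p v : P} (hd : ∀ t ∈ Icc (0 : ℝ) 1, DifferentiableAt ℝ Φ (p + t • v))
    (hc : ContinuousOn (fun t : ℝ => fderiv ℝ Φ (p + t • v)) (Icc 0 1)) :
    avgD Φ p v v = Φ (p + v) - Φ p := by
  have hi : IntervalIntegrable (fun t : ℝ => fderiv ℝ Φ (p + t • v)) volume 0 1 := by
    apply ContinuousOn.intervalIntegrable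
    rwa [uIcc_of_le zero_le_one]
  rw [avgD, ContinuousLinearMap.intervalIntegral_apply hi]
  have h1 : ∀ t ∈ uIcc (0 : ℝ) 1, HasDerivAt (fun t : ℝ => Φ (p + t • v))
      (fderiv ℝ Φ (p + t • v) v) t := by
    intro t ht
    rw [uIcc_of_le zero_le_one] at ht
    have hline : HasDerivAt (fun t : ℝ => p + t • v) v t := by
      simpa using ((hasDerivAt_id t).smul_const v).const_add p
    exact (hd t ht).hasFDerivAt.comp_hasDerivAt t hline
  have h2 : IntervalIntegrable (fun t : ℝ => fderiv ℝ Φ (p + t • v) v) volume 0 1 := by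
    apply ContinuousOn.intervalIntegrable
    rw [uIcc_of_le zero_le_one]
    exact hc.clm_apply continuousOn_const
  rw [intervalIntegral.integral_eq_sub_of_hasDerivAt h1 h2]
  simp

theorem norm_avgD_sub_le {p v : P} (hc : ContinuousOn (fun t : ℝ => fderiv ℝ Φ (p + t • v)) (Icc 0 1))
    {T : P →L[ℝ] ℝ} {ε : ℝ} (h : ∀ t ∈ Icc (0 : ℝ) 1, ‖fderiv ℝ Φ (p + t • v) - T‖ ≤ ε) :
    ‖avgD Φ p v - T‖ ≤ ε := by
  have hi : IntervalIntegrable (fun t : ℝ => fderiv ℝ Φ (p + t • v)) volume 0 1 := by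
    apply ContinuousOn.intervalIntegrable
    rwa [uIcc_of_le zero_le_one]
  have e : avgD Φ p v - T = ∫ t in (0 : ℝ)..1, (fderiv ℝ Φ (p + t • v) - T) := by
    rw [intervalIntegral.integral_sub hi intervalIntegrable_const]
    simp [avgD]
  rw [e]
  refine (intervalIntegral.norm_integral_le_of_norm_le_const (C := ε) fun t ht => ?_).trans (by simp)
  rw [uIoc_of_le zero_le_one] at ht
  exact h t ⟨ht.1.le, ht.2⟩

theorem norm_avgD_sub_avgD_le {p v p' v' : P}
    (hc : ContinuousOn (fun t : ℝ => fderiv ℝ Φ (p + t • v)) (Icc 0 1))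
    (hc' : ContinuousOn (fun t : ℝ => fderiv ℝ Φ (p' + t • v')) (Icc 0 1)) {ε : ℝ}
    (h : ∀ t ∈ Icc (0 : ℝ) 1, ‖fderiv ℝ Φ (p + t • v) - fderiv ℝ Φ (p' + t • v')‖ ≤ ε) :
    ‖avgD Φ p v - avgD Φ p' v'‖ ≤ ε := by
  have hi : IntervalIntegrable (fun t : ℝ => fderiv ℝ Φ (p + t • v)) volume 0 1 := by
    apply ContinuousOn.intervalIntegrable
    rwa [uIcc_of_le zero_le_one]
  have hi' : IntervalIntegrable (fun t : ℝ => fderiv ℝ Φ (p' + t • v')) volume 0 1 := by
    apply ContinuousOn.intervalIntegrable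
    rwa [uIcc_of_le zero_le_one]
  have e : avgD Φ p v - avgD Φ p' v' =
      ∫ t in (0 : ℝ)..1, (fderiv ℝ Φ (p + t • v) - fderiv ℝ Φ (p' + t • v')) :=
    (intervalIntegral.integral_sub hi hi').symm
  rw [e]
  refine (intervalIntegral.norm_integral_le_of_norm_le_const (C := ε) fun t ht => ?_).trans (by simp)
  rw [uIoc_of_le zero_le_one] at ht
  exact h t ⟨ht.1.le, ht.2⟩

end Avg

section DQ2

variable {E : Type*} [NormedAddCommGroup E] [NormedSpace ℝ E]

theorem add_smul_mem_ball {x₀ x e : E} {r R h : ℝ} (hr : r + h * ‖e‖ ≤ R) (hx : x ∈ ball x₀ r)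
    {τ : ℝ} (hτ : τ ∈ Icc 0 h) : x + τ • e ∈ ball x₀ R := by
  rw [mem_ball_iff_norm] at hx ⊢
  calc ‖x + τ • e - x₀‖ = ‖(x - x₀) + τ • e‖ := by congr 1; abel
    _ ≤ ‖x - x₀‖ + τ * ‖e‖ := by
      refine (norm_add_le _ _).trans ?_
      rw [norm_smul, Real.norm_of_nonneg hτ.1]
    _ < r + h * ‖e‖ := add_lt_add_of_lt_of_le hx
      (mul_le_mul_of_nonneg_right hτ.2 (norm_nonneg _))
    _ ≤ R := hr

theorem hasFDerivAt_dq {F : Type*} [NormedAddCommGroup F] [NormedSpace ℝ F] {f : E → F} {e x : E}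
    {h : ℝ} (h1 : DifferentiableAt ℝ f x) (h2 : DifferentiableAt ℝ f (x + h • e)) :
    HasFDerivAt (dq e h f) (dq e h (fderiv ℝ f) x) x := by
  have h3 : HasFDerivAt (fun y => f (y + h • e)) (fderiv ℝ f (x + h • e)) x :=
    (hasFDerivAt_comp_add_right _).2 h2.hasFDerivAt
  exact (h3.fun_sub h1.hasFDerivAt).fun_const_smul _

variable {x₀ e : E} {r R h : ℝ} {w : E → ℝ}

theorem fderiv_dq (hh : 0 < h) (hr : r + h * ‖e‖ ≤ R) (hw : ContDiffOn ℝ 2 w (ball x₀ R)) :
    ∀ x ∈ ball x₀ r, fderiv ℝ (dq e h w) x = dq e h (fderiv ℝ w) x := by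
  intro x hx
  have h1 : ∀ y ∈ ball x₀ R, DifferentiableAt ℝ w y := fun y hy =>
    (hw.contDiffAt (isOpen_ball.mem_nhds hy)).differentiableAt (by norm_num)
  have h0 := add_smul_mem_ball hr hx (τ := 0) ⟨le_rfl, hh.le⟩
  rw [zero_smul, add_zero] at h0
  exact (hasFDerivAt_dq (h1 x h0) (h1 _ (add_smul_mem_ball hr hx ⟨hh.le, le_rfl⟩))).fderiv

theorem D2_dq (hh : 0 < h) (hr : r + h * ‖e‖ ≤ R) (hw : ContDiffOn ℝ 2 w (ball x₀ R)) :
    ∀ x ∈ ball x₀ r, D2 (dq e h w) x = dq e h (D2 w) x := by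
  intro x hx
  have h1 : ∀ y ∈ ball x₀ R, DifferentiableAt ℝ (fderiv ℝ w) y := fun y hy =>
    ((hw.contDiffAt (isOpen_ball.mem_nhds hy)).fderiv_right (m := 1) (by norm_num)).differentiableAt
      (by norm_num)
  have h0 := add_smul_mem_ball hr hx (τ := 0) ⟨le_rfl, hh.le⟩
  rw [zero_smul, add_zero] at h0
  have h2 : fderiv ℝ (dq e h w) =ᶠ[𝓝 x] dq e h (fderiv ℝ w) := by
    filter_upwards [isOpen_ball.mem_nhds hx] with y hy using fderiv_dq hh hr hw y hy
  rw [D2, h2.fderiv_eq]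
  exact (hasFDerivAt_dq (h1 x h0) (h1 _ (add_smul_mem_ball hr hx ⟨hh.le, le_rfl⟩))).fderiv

theorem contDiffOn_dq (hh : 0 < h) (hr : r + h * ‖e‖ ≤ R) (hw : ContDiffOn ℝ 2 w (ball x₀ R)) :
    ContDiffOn ℝ 2 (dq e h w) (ball x₀ r) := by
  intro x hx
  have h0 := add_smul_mem_ball hr hx (τ := 0) ⟨le_rfl, hh.le⟩
  rw [zero_smul, add_zero] at h0
  have h1 : ContDiffAt ℝ 2 w x := hw.contDiffAt (isOpen_ball.mem_nhds h0)
  have h2 : ContDiffAt ℝ 2 w (x + h • e) :=
    hw.contDiffAt (isOpen_ball.mem_nhds (add_smul_mem_ball hr hx ⟨hh.le, le_rfl⟩))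
  have h3 : ContDiffAt ℝ 2 (fun y => w (y + h • e)) x :=
    ContDiffAt.comp x (g := w) (f := fun y => y + h • e) h2 (contDiffAt_id.add contDiffAt_const)
  exact ((h3.sub h1).const_smul (h⁻¹)).contDiffWithinAt

end DQ2

section Main

/-- Points `(x, s, M)`. -/
abbrev Pt (E : Type*) [NormedAddCommGroup E] [NormedSpace ℝ E] : Type _ := E × ℝ × Bil E

variable {E : Type} [NormedAddCommGroup E] [NormedSpace ℝ E]

/-- `(x, w(x), D²w(x))` -/
def jt (w : E → ℝ) (x : E) : Pt E := (x, w x, D2 w x)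

/-- the embedding `M ↦ (0, 0, M)` -/
def J : Bil E →L[ℝ] Pt E :=
  (ContinuousLinearMap.inr ℝ E (ℝ × Bil E)).comp (ContinuousLinearMap.inr ℝ ℝ (Bil E))

@[simp] theorem J_apply (M : Bil E) : (J M : Pt E) = (0, 0, M) := rfl

/-- the embedding `s ↦ (0, s, 0)` -/
def J' : ℝ →L[ℝ] Pt E :=
  (ContinuousLinearMap.inr ℝ E (ℝ × Bil E)).comp (ContinuousLinearMap.inl ℝ ℝ (Bil E))

@[simp] theorem J'_apply (s : ℝ) : (J' s : Pt E) = (0, s, 0) := rfl

theorem norm_comp_J_le (T : Pt E →L[ℝ] ℝ) : ‖T.comp J‖ ≤ ‖T‖ := by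
  refine ContinuousLinearMap.opNorm_le_bound _ (norm_nonneg _) fun M => ?_
  refine (T.le_opNorm _).trans (mul_le_mul_of_nonneg_left ?_ (norm_nonneg _))
  simp [Prod.norm_def]

variable [FiniteDimensional ℝ E] {α : ℝ} {w : E → ℝ} {x₀ : E}

theorem local_bounds (hα : 0 < α) (hα1 : α ≤ 1) {R : ℝ} (hR : 0 < R)
    (hw : ContDiffOn ℝ 2 w (ball x₀ R)) (hw2 : LHol α (D2 w) (ball x₀ R)) :
    ∃ r, 0 < r ∧ r ≤ R ∧ ∃ K, 0 ≤ K ∧ (Hol α K w (ball x₀ r) ∧ ∀ x ∈ ball x₀ r, ‖w x‖ ≤ K) ∧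
      (Hol α K (fderiv ℝ w) (ball x₀ r) ∧ ∀ x ∈ ball x₀ r, ‖fderiv ℝ w x‖ ≤ K) ∧
      (Hol α K (D2 w) (ball x₀ r) ∧ ∀ x ∈ ball x₀ r, ‖D2 w x‖ ≤ K) := by
  have hc : ∀ x ∈ ball x₀ R, ContDiffAt ℝ 2 w x := fun x hx =>
    hw.contDiffAt (isOpen_ball.mem_nhds hx)
  have hc1 : ∀ x ∈ ball x₀ R, ContDiffAt ℝ 1 (fderiv ℝ w) x := fun x hx =>
    (hc x hx).fderiv_right (by norm_num)
  have hc2 : ContinuousOn (D2 w) (ball x₀ R) := fun x hx =>
    (((hc1 x hx).fderiv_right (m := 0) (by norm_num)).continuousAt).continuousWithinAt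
  have h0 : LHol α w (ball x₀ R) := lHol_of_fderiv hα1 isOpen_ball
    (fun x hx => (hc x hx).differentiableAt (by norm_num))
    (fun x hx => (hc1 x hx).continuousAt.continuousWithinAt)
  have h1 : LHol α (fderiv ℝ w) (ball x₀ R) := lHol_of_fderiv hα1 isOpen_ball
    (fun x hx => (hc1 x hx).differentiableAt (by norm_num)) hc2
  obtain ⟨r0, hr0, _, K0, hK0, h0, h0'⟩ := h0.exists_bound hα (mem_ball_self hR)
  obtain ⟨r1, hr1, _, K1, hK1, h1, h1'⟩ := h1.exists_bound hα (mem_ball_self hR)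
  obtain ⟨r2, hr2, _, K2, hK2, h2, h2'⟩ := hw2.exists_bound hα (mem_ball_self hR)
  refine ⟨min R (min r0 (min r1 r2)), by positivity, min_le_left _ _, K0 + K1 + K2, by positivity,
    ⟨?_, ?_⟩, ⟨?_, ?_⟩, ⟨?_, ?_⟩⟩
  · exact (h0.mono (ball_subset_ball (by simp))).mono_const (by linarith)
  · exact fun x hx => (h0' x (ball_subset_ball (by simp) hx)).trans (by linarith)
  · exact (h1.mono (ball_subset_ball (by simp))).mono_const (by linarith)
  · exact fun x hx => (h1' x (ball_subset_ball (by simp) hx)).trans (by linarith)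
  · exact (h2.mono (ball_subset_ball (by simp))).mono_const (by linarith)
  · exact fun x hx => (h2' x (ball_subset_ball (by simp) hx)).trans (by linarith)

/-- The local step. -/
theorem local_step (hα : 0 < α) (hα1 : α ≤ 1) {R : ℝ} (hR : 0 < R)
    (hw : ContDiffOn ℝ 2 w (ball x₀ R)) (hw2 : LHol α (D2 w) (ball x₀ R))
    {Φ : Pt E → ℝ} {ρ L : ℝ} (hρ : 0 < ρ) (hL : 0 ≤ L)
    (hΦd : ∀ p ∈ ball (jt w x₀) ρ, DifferentiableAt ℝ Φ p)
    (hΦ : ∀ p ∈ ball (jt w x₀) ρ, ∀ p' ∈ ball (jt w x₀) ρ,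
      ‖fderiv ℝ Φ p - fderiv ℝ Φ p'‖ ≤ L * (‖p.1 - p'.1‖ ^ α + ‖p.2 - p'.2‖))
    (heq : ∀ x ∈ ball x₀ R, Φ (jt w x) = 0)
    {C : ℝ} (hC : 0 ≤ C) (hB : CCE α C ((fderiv ℝ Φ (jt w x₀)).comp J)) :
    ∃ r > 0, r ≤ R ∧ HC α (ball x₀ r) 3 w := by
  set p₀ := jt w x₀ with hp₀
  set ε : ℝ := 1 / (4 * (C + 1)) with hε
  have hε0 : 0 < ε := by positivity
  -- a smaller ball of points
  obtain ⟨ρ', hρ'0, hρ'ρ, hρ'⟩ : ∃ ρ' > 0, ρ' ≤ ρ ∧ ∀ p ∈ ball p₀ ρ',
      ‖fderiv ℝ Φ p - fderiv ℝ Φ p₀‖ ≤ ε := by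
    have hc : Continuous fun p : Pt E => L * (‖p.1 - p₀.1‖ ^ α + ‖p.2 - p₀.2‖) := by
      refine continuous_const.mul (Continuous.add ?_ (by fun_prop))
      exact (continuous_fst.sub continuous_const).norm.rpow_const fun _ => Or.inr hα.le
    have h1 : ∀ᶠ p in 𝓝 p₀, L * (‖p.1 - p₀.1‖ ^ α + ‖p.2 - p₀.2‖) < ε := by
      refine hc.tendsto p₀ |>.eventually_lt_const ?_
      simpa [Real.zero_rpow hα.ne'] using hε0
    obtain ⟨ρ1, hρ1, h2⟩ := Metric.mem_nhds_iff.1 h1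
    refine ⟨min ρ ρ1, lt_min hρ hρ1, min_le_left _ _, fun p hp => ?_⟩
    exact (hΦ p (ball_subset_ball (min_le_left _ _) hp) p₀ (mem_ball_self hρ)).trans
      (show _ < ε from h2 (ball_subset_ball (min_le_right _ _) hp)).le
  obtain ⟨R1, hR1, hR1R, K, hK, ⟨hw0, hw0b⟩, ⟨hw1, hw1b⟩, ⟨hw2', hw2b⟩⟩ :=
    local_bounds hα hα1 hR hw hw2
  -- continuity of the jet
  obtain ⟨R2, hR2, hR2R, hjt⟩ : ∃ R2 > 0, R2 ≤ R1 ∧ ∀ x ∈ ball x₀ R2, jt w x ∈ ball p₀ ρ' := by
    have hc : ContinuousAt (jt w) x₀ :=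
      continuousAt_id.prodMk (((hw0.continuousOn hα).continuousAt (ball_mem_nhds _ hR1)).prodMk
        ((hw2'.continuousOn hα).continuousAt (ball_mem_nhds _ hR1)))
    obtain ⟨R', hR', h1⟩ := Metric.mem_nhds_iff.1 (hc.preimage_mem_nhds (ball_mem_nhds _ hρ'0))
    exact ⟨min R1 R', lt_min hR1 hR', min_le_left _ _, fun x hx =>
      h1 (ball_subset_ball (min_le_right _ _) hx)⟩
  set M : ℝ := L * (1 + K) with hM
  have hM0 : 0 ≤ M := by positivity
  obtain ⟨r, hr, hrR2, hrs⟩ : ∃ r > 0, 2 * r ≤ R2 ∧ C * (ε + M * (3 * r) ^ α) ≤ 1 / 2 := by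
    have hc : Continuous fun r : ℝ => C * (ε + M * (3 * r) ^ α) := by
      refine continuous_const.mul (continuous_const.add (continuous_const.mul ?_))
      exact (continuous_const.mul continuous_id).rpow_const fun _ => Or.inr hα.le
    have h1 : ∀ᶠ r in 𝓝 (0 : ℝ), C * (ε + M * (3 * r) ^ α) < 1 / 2 := by
      refine hc.tendsto 0 |>.eventually_lt_const ?_
      rw [mul_zero, Real.zero_rpow hα.ne', mul_zero, add_zero, hε]
      rw [mul_one_div, div_lt_div_iff₀ (by positivity) (by norm_num)]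
      linarith
    obtain ⟨δ, hδ, h2⟩ := Metric.mem_nhds_iff.1 h1
    refine ⟨min (R2 / 2) (δ / 2), by positivity, ?_, ?_⟩
    · have := min_le_left (R2 / 2) (δ / 2); linarith
    · have h3 : min (R2 / 2) (δ / 2) ∈ ball (0 : ℝ) δ := by
        rw [mem_ball_zero_iff, Real.norm_of_nonneg (by positivity)]
        have := min_le_right (R2 / 2) (δ / 2); linarith
      exact (show _ < (1 : ℝ) / 2 from h2 h3).le
  have hR2R1 : ball x₀ R2 ⊆ ball x₀ R1 := ball_subset_ball hR2R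
  have hcd : ContDiffOn ℝ 2 w (ball x₀ R2) :=
    hw.mono (ball_subset_ball (hR2R.trans hR1R))
  have hwd : ∀ x ∈ ball x₀ R2, DifferentiableAt ℝ w x := fun x hx =>
    (hcd.contDiffAt (isOpen_ball.mem_nhds hx)).differentiableAt (by norm_num)
  have hwd1 : ∀ x ∈ ball x₀ R2, DifferentiableAt ℝ (fderiv ℝ w) x := fun x hx =>
    ((hcd.contDiffAt (isOpen_ball.mem_nhds hx)).fderiv_right (m := 1) (by norm_num)).differentiableAt
      (by norm_num)
  have hrR : r ≤ R := by linarith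
  -- main claim in each direction
  have key : ∀ e : E, HC α (ball x₀ (r / 4)) 2 (fun x => fderiv ℝ w x e) := by
    intro e
    set h₀ : ℝ := r / (4 * (‖e‖ + 1)) with hh₀
    have hh0 : 0 < h₀ := by positivity
    have hhe : h₀ * ‖e‖ ≤ r / 4 := by
      rw [hh₀, div_mul_eq_mul_div, div_le_div_iff₀ (by positivity) (by norm_num)]
      nlinarith [norm_nonneg e]
    set h : ℕ → ℝ := fun k => h₀ / 2 ^ k with hh
    have hk0 : ∀ k, 0 < h k := fun k => by positivity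
    have hk1 : ∀ k, h k ≤ h₀ := fun k => div_le_self hh0.le (one_le_pow₀ (by norm_num))
    have hkr : ∀ k, r + h k * ‖e‖ ≤ R2 := fun k => by
      have := mul_le_mul_of_nonneg_right (hk1 k) (norm_nonneg e)
      linarith
    have hmem : ∀ k, ∀ x ∈ ball x₀ r, ∀ τ ∈ Icc 0 (h k), x + τ • e ∈ ball x₀ R2 := fun k x hx τ hτ =>
      add_smul_mem_ball (hkr k) hx hτ
    have hmem0 : ∀ x ∈ ball x₀ r, x ∈ ball x₀ R2 := fun x hx => ball_subset_ball (by linarith) hx
    have hmem1 : ∀ k, ∀ x ∈ ball x₀ r, x + h k • e ∈ ball x₀ R2 := fun k x hx =>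
      hmem k x hx (h k) ⟨(hk0 k).le, le_rfl⟩
    -- the segment
    have hseg : ∀ k, ∀ x ∈ ball x₀ r, ∀ t ∈ Icc (0 : ℝ) 1,
        jt w x + t • (jt w (x + h k • e) - jt w x) ∈ ball p₀ ρ' := by
      intro k x hx t ht
      exact (convex_ball p₀ ρ').add_smul_sub_mem (hjt x (hmem0 x hx)) (hjt _ (hmem1 k x hx)) ht
    have hseg' : ∀ k, ∀ x ∈ ball x₀ r, ∀ t ∈ Icc (0 : ℝ) 1,
        jt w x + t • (jt w (x + h k • e) - jt w x) ∈ ball p₀ ρ := fun k x hx t ht =>
      ball_subset_ball hρ'ρ (hseg k x hx t ht)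
    have hcont : ∀ k, ∀ x ∈ ball x₀ r, ContinuousOn
        (fun t : ℝ => fderiv ℝ Φ (jt w x + t • (jt w (x + h k • e) - jt w x))) (Icc 0 1) := by
      intro k x hx
      have h1 : ContinuousOn (fderiv ℝ Φ) (ball p₀ ρ) := by
        intro p hp
        rw [ContinuousWithinAt, tendsto_iff_norm_sub_tendsto_zero]
        have hc : Continuous fun p' : Pt E => L * (‖p'.1 - p.1‖ ^ α + ‖p'.2 - p.2‖) := by
          refine continuous_const.mul (Continuous.add ?_ (by fun_prop))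
          exact (continuous_fst.sub continuous_const).norm.rpow_const fun _ => Or.inr hα.le
        have h2 : Tendsto (fun p' : Pt E => L * (‖p'.1 - p.1‖ ^ α + ‖p'.2 - p.2‖))
            (𝓝[ball p₀ ρ] p) (𝓝 0) := by
          have := (hc.tendsto p).mono_left (nhdsWithin_le_nhds (s := ball p₀ ρ))
          simpa [Real.zero_rpow hα.ne'] using this
        refine squeeze_zero' (Eventually.of_forall fun _ => norm_nonneg _) ?_ h2
        filter_upwards [self_mem_nhdsWithin] with p' hp' using hΦ p' hp' p hp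
      exact h1.comp (by fun_prop) fun t ht => hseg' k x hx t ht
    set Ψ : ℕ → E → (Pt E →L[ℝ] ℝ) := fun k x => avgD Φ (jt w x) (jt w (x + h k • e) - jt w x) with hΨ
    have hΨε : ∀ k, ∀ x ∈ ball x₀ r, ‖Ψ k x - fderiv ℝ Φ p₀‖ ≤ ε := fun k x hx =>
      norm_avgD_sub_le (hcont k x hx) fun t ht => hρ' _ (hseg k x hx t ht)
    have hΨM : ∀ k, Hol α M (Ψ k) (ball x₀ r) := by
      intro k x hx y hy
      refine norm_avgD_sub_avgD_le (hcont k x hx) (hcont k y hy) fun t ht => ?_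
      refine (hΦ _ (hseg' k x hx t ht) _ (hseg' k y hy t ht)).trans ?_
      rw [hM, mul_assoc]
      refine mul_le_mul_of_nonneg_left ?_ hL
      rw [add_mul, one_mul]
      have e1 : (jt w x + t • (jt w (x + h k • e) - jt w x)).1 -
          (jt w y + t • (jt w (y + h k • e) - jt w y)).1 = x - y := by
        simp only [jt, Prod.fst_add, Prod.smul_fst, Prod.fst_sub]
        module
      have e2 : (jt w x + t • (jt w (x + h k • e) - jt w x)).2 -
          (jt w y + t • (jt w (y + h k • e) - jt w y)).2 =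
          (1 - t) • ((jt w x).2 - (jt w y).2) +
            t • ((jt w (x + h k • e)).2 - (jt w (y + h k • e)).2) := by
        simp only [Prod.snd_add, Prod.smul_snd, Prod.snd_sub]
        module
      rw [e1, e2]
      refine add_le_add le_rfl ?_
      have hq : ∀ x ∈ ball x₀ R2, ∀ y ∈ ball x₀ R2, ‖(jt w x).2 - (jt w y).2‖ ≤
          K * ‖x - y‖ ^ α := fun x hx y hy => by
        rw [Prod.norm_def]
        exact max_le (hw0 x (hR2R1 hx) y (hR2R1 hy)) (hw2' x (hR2R1 hx) y (hR2R1 hy))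
      have h3 := hq x (hmem0 x hx) y (hmem0 y hy)
      have h4 := hq _ (hmem1 k x hx) _ (hmem1 k y hy)
      rw [add_sub_add_right_eq_sub] at h4
      calc _ ≤ ‖(1 - t) • ((jt w x).2 - (jt w y).2)‖ +
            ‖t • ((jt w (x + h k • e)).2 - (jt w (y + h k • e)).2)‖ := norm_add_le _ _
        _ = (1 - t) * ‖(jt w x).2 - (jt w y).2‖ +
            t * ‖(jt w (x + h k • e)).2 - (jt w (y + h k • e)).2‖ := by
          rw [norm_smul, norm_smul, Real.norm_of_nonneg ht.1,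
            Real.norm_of_nonneg (sub_nonneg.2 ht.2)]
        _ ≤ (1 - t) * (K * ‖x - y‖ ^ α) + t * (K * ‖x - y‖ ^ α) :=
          add_le_add (mul_le_mul_of_nonneg_left h3 (sub_nonneg.2 ht.2))
            (mul_le_mul_of_nonneg_left h4 ht.1)
        _ = K * ‖x - y‖ ^ α := by ring
    -- difference quotients
    have hv0 : UH α (ball x₀ r) (fun k => dq e (h k) w) :=
      UH.mk' (fun k x hx => norm_dq_le (hk0 k) hwd (fun τ hτ => hmem k x hx τ hτ)
          fun y hy => hw1b y (hR2R1 hy))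
        (fun k => Hol.dq (hk0 k) hwd (hmem k) (hw1.mono hR2R1))
    have hv1 : UH α (ball x₀ r) (fun k => fderiv ℝ (dq e (h k) w)) := by
      have : UH α (ball x₀ r) (fun k => dq e (h k) (fderiv ℝ w)) :=
        UH.mk' (fun k x hx => norm_dq_le (hk0 k) hwd1 (fun τ hτ => hmem k x hx τ hτ)
            fun y hy => hw2b y (hR2R1 hy))
          (fun k => Hol.dq (hk0 k) hwd1 (hmem k) (hw2'.mono hR2R1))
      exact this.congr fun k x hx => (fderiv_dq (hk0 k) (hkr k) hcd x hx).symm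
    have hv2 : ∀ k, ∃ T, 0 ≤ T ∧ Hol α T (D2 (dq e (h k) w)) (ball x₀ r) := by
      intro k
      refine ⟨(h k)⁻¹ * (K + K), by have := hk0 k; positivity, ?_⟩
      have h1 : Hol α ((h k)⁻¹ * (K + K)) (dq e (h k) (D2 w)) (ball x₀ r) := by
        intro x hx y hy
        have e1 : dq e (h k) (D2 w) x - dq e (h k) (D2 w) y = (h k)⁻¹ •
            ((D2 w (x + h k • e) - D2 w (y + h k • e)) - (D2 w x - D2 w y)) := by
          simp only [dq]; module
        rw [e1, norm_smul, norm_inv, Real.norm_of_nonneg (hk0 k).le, mul_assoc, add_mul]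
        refine mul_le_mul_of_nonneg_left ((norm_sub_le _ _).trans (add_le_add ?_ ?_))
          (inv_nonneg.2 (hk0 k).le)
        · have := hw2' _ (hR2R1 (hmem1 k x hx)) _ (hR2R1 (hmem1 k y hy))
          rwa [add_sub_add_right_eq_sub] at this
        · exact hw2' x (hR2R1 (hmem0 x hx)) y (hR2R1 (hmem0 y hy))
      exact h1.congr fun x hx => (D2_dq (hk0 k) (hkr k) hcd x hx).symm
    -- the differentiated equation
    have hΨU : UH α (ball x₀ r) Ψ := UH.mk' (A := ‖fderiv ℝ Φ p₀‖ + ε) (fun k x hx => by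
      calc ‖Ψ k x‖ = ‖fderiv ℝ Φ p₀ + (Ψ k x - fderiv ℝ Φ p₀)‖ := by congr 1; abel
        _ ≤ _ := (norm_add_le _ _).trans (add_le_add le_rfl (hΨε k x hx))) hΨM
    have hg : UH α (ball x₀ r) (fun k x => (Ψ k x).comp J (D2 (dq e (h k) w) x)) := by
      have h1 : UH α (ball x₀ r) (fun (_ : ℕ) (_ : E) => ((e, 0, 0) : Pt E)) :=
        UH.mk' (fun _ _ _ => le_rfl) (fun _ => hol_const _ _ _)
      have h2 := (hΨU.bilin (ContinuousLinearMap.id ℝ (Pt E →L[ℝ] ℝ)) (h1.add (hv0.clm J'))).neg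
      refine h2.congr fun k x hx => ?_
      have h3 : Ψ k x (jt w (x + h k • e) - jt w x) = 0 := by
        rw [hΨ]
        simp only
        rw [avgD_apply (fun t ht => hΦd _ (hseg' k x hx t ht)) (hcont k x hx),
          add_sub_cancel, heq _ (ball_subset_ball (hR2R.trans hR1R) (hmem1 k x hx)),
          heq _ (ball_subset_ball (hR2R.trans hR1R) (hmem0 x hx)), sub_self]
      have h4 : (h k)⁻¹ • (jt w (x + h k • e) - jt w x) =
          ((e, 0, 0) : Pt E) + J' (dq e (h k) w x) + J (dq e (h k) (D2 w) x) := by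
        rw [J_apply, J'_apply]
        refine Prod.ext ?_ (Prod.ext ?_ ?_)
        · simp only [jt, Prod.smul_fst, Prod.fst_sub, Prod.fst_add, add_zero, add_sub_cancel_left]
          rw [smul_smul, inv_mul_cancel₀ (hk0 k).ne', one_smul]
        · simp [jt, dq]
        · simp [jt, dq]
      have h5 : Ψ k x (((e, 0, 0) : Pt E) + J' (dq e (h k) w x)) +
          Ψ k x (J (dq e (h k) (D2 w) x)) = 0 := by
        rw [← map_add, ← h4, map_smul, h3, smul_zero]
      rw [D2_dq (hk0 k) (hkr k) hcd x hx]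
      show -(Ψ k x (((e, 0, 0) : Pt E) + J' (dq e (h k) w x))) = Ψ k x (J (dq e (h k) (D2 w) x))
      linarith
    obtain ⟨C', hC', hfin⟩ := interior_family hα hα1 hC hB hr (A := fun k x => (Ψ k x).comp J)
      (w := fun k => dq e (h k) w) hε0.le hM0
      (fun k x hx => by
        have : (Ψ k x).comp J - (fderiv ℝ Φ p₀).comp J = (Ψ k x - fderiv ℝ Φ p₀).comp J := by
          ext M; simp
        rw [this]
        exact (norm_comp_J_le _).trans (hΨε k x hx))
      (fun k x hx y hy => by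
        have : (Ψ k x).comp J - (Ψ k y).comp J = (Ψ k x - Ψ k y).comp J := by
          ext M; simp
        rw [this]
        exact (norm_comp_J_le _).trans (hΨM k x hx y hy))
      hrs (fun k => contDiffOn_dq (hk0 k) (hkr k) hcd) hv0 hv1 hv2 hg
    refine hc_two_of_dq hα (R := r / 2) hh0 (by linarith) (hcd.mono (ball_subset_ball (by linarith)))
      hC' fun k => ?_
    exact (hfin k).congr fun x hx => D2_dq (hk0 k) (hkr k) hcd x
      (ball_subset_ball (by linarith) hx)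
  refine ⟨r / 4, by positivity, by linarith, ?_⟩
  refine ⟨fun x hx => hwd x (ball_subset_ball (by linarith) hx), ?_⟩
  exact HC.of_apply hα hα1 isOpen_ball (Module.finBasis ℝ E) fun i => key _

end Main

end Vale.Agent.P272.K.R
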